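import Vale.Agent.P254.FV1.Defs
import Vale.Agent.P254.Unc.BerH

/-! P254, one free direction, L9: the inequality for a half of the body (helper678). -/

open MeasureTheory Set
open scoped ENNReal

namespace Vale.Agent.P254.FV1

open Unc Unc.BerH

namespace Half

variable {d : ℕ}

/-- The set where the section function of `K` is above the cone. -/
theorem exists_T {K : Set (Fin (d + 1) → ℝ)} (hK : Convex ℝ K) (hc : IsCompact K)
    (k : Fin (d + 1)) (hk : ∀ x ∈ K, 0 ≤ x k) {c b : ℝ} (hcp : 0 < c) (hbp : 0 < b) :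
    ∃ (R : ℝ) (T : Set ℝ), T ⊆ Icc 0 R ∧ T.OrdConnected ∧
      (∀ t ∈ T, cone d c b t ≤ volume.real (slice K k t)) ∧
      (∀ t, 0 ≤ t → t ∉ T → volume.real (slice K k t) ≤ cone d c b t) ∧
      ∀ t, 0 ≤ t → t < b → cone d c b t ≤ volume.real (slice K k t) → t ∈ T := by
  obtain ⟨R, hR⟩ : ∃ R : ℝ, ∀ x ∈ K, x k ≤ R := by
    obtain ⟨R, hR⟩ := (hc.image (continuous_apply k)).bddAbove
    exact ⟨R, fun x hx => hR ⟨x, hx, rfl⟩⟩
  have hle : ∀ t, (slice K k t).Nonempty → t ≤ R := by
    rintro t ⟨y, hy⟩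
    have := hR _ hy
    simpa using this
  have hge : ∀ t, (slice K k t).Nonempty → 0 ≤ t := by
    rintro t ⟨y, hy⟩
    have := hk _ hy
    simpa using this
  have hfin : ∀ t, volume (slice K k t) ≠ ∞ := by
    intro t
    have hb : Bornology.IsBounded (slice K k t) := by
      obtain ⟨r, hr⟩ := hc.isBounded.exists_norm_le
      refine (Metric.isBounded_iff_subset_closedBall 0).2 ⟨r, fun y hy => ?_⟩
      rw [mem_closedBall_zero_iff]
      have h1 := hr _ hy
      have h0 : 0 ≤ r := (norm_nonneg _).trans h1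
      rw [pi_norm_le_iff_of_nonneg h0] at h1 ⊢
      intro i
      simpa using h1 (k.succAbove i)
    exact hb.measure_lt_top.ne
  have hcone : ∀ t, 0 ≤ t → t < b → cone d c b t = c * (1 - t / b) ^ d := fun t h1 h2 => by
    unfold cone; rw [indicator_of_mem (show t ∈ Ico 0 b from ⟨h1, h2⟩)]
  have hcone' : ∀ t, b ≤ t → cone d c b t = 0 := fun t h1 => by
    unfold cone; rw [indicator_of_notMem (fun h => absurd h.2 (not_lt.2 h1))]
  have hpos : ∀ t, 0 ≤ t → t < b → 0 < 1 - t / b := fun t _ h2 => by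
    rw [sub_pos, div_lt_one hbp]; exact h2
  have hmem : ∀ t, 0 ≤ t → t < b → cone d c b t ≤ volume.real (slice K k t) →
      ENNReal.ofReal (c * (1 - t / b) ^ d) ≤ volume (slice K k t) := by
    intro t h1 h2 h3
    rw [hcone t h1 h2] at h3
    exact ENNReal.ofReal_le_of_le_toReal h3
  have hmem' : ∀ t, 0 ≤ t → t < b → ENNReal.ofReal (c * (1 - t / b) ^ d) ≤ volume (slice K k t) →
      cone d c b t ≤ volume.real (slice K k t) := by
    intro t h1 h2 h3
    rw [hcone t h1 h2]
    exact (ENNReal.ofReal_le_iff_le_toReal (hfin t)).1 h3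
  have hne : ∀ t, 0 ≤ t → t < b → cone d c b t ≤ volume.real (slice K k t) →
      (slice K k t).Nonempty := by
    intro t h1 h2 h3
    rw [nonempty_iff_ne_empty]
    intro h
    have := hmem t h1 h2 h3
    rw [h, measure_empty, nonpos_iff_eq_zero, ENNReal.ofReal_eq_zero] at this
    have h4 := hpos t h1 h2
    have : 0 < c * (1 - t / b) ^ d := by positivity
    linarith
  refine ⟨R, {t | (0 ≤ t ∧ t < b ∧ cone d c b t ≤ volume.real (slice K k t)) ∨
    (b ≤ t ∧ (slice K k t).Nonempty)}, ?_, ?_, ?_, ?_, fun t h0 h1 h2 => Or.inl ⟨h0, h1, h2⟩⟩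
  · rintro t (⟨h1, h2, h3⟩ | ⟨h1, h2⟩)
    · exact ⟨h1, hle t (hne t h1 h2 h3)⟩
    · exact ⟨hbp.le.trans h1, hle t h2⟩
  · rw [ordConnected_iff]
    intro s hs t ht _ u hu
    rcases hu.1.eq_or_lt with rfl | hsu
    · exact hs
    rcases hu.2.eq_or_lt with rfl | hut
    · exact ht
    have hst : s < t := hsu.trans hut
    have hts : 0 < t - s := sub_pos.2 hst
    set l := (t - u) / (t - s) with hl
    set m := (u - s) / (t - s) with hm
    have hl0 : 0 < l := div_pos (sub_pos.2 hut) hts
    have hm0 : 0 < m := div_pos (sub_pos.2 hsu) hts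
    have hlm : l + m = 1 := by rw [hl, hm]; field_simp; ring
    have hu' : l * s + m * t = u := by rw [hl, hm]; field_simp; ring
    have hsne : (slice K k s).Nonempty := by
      rcases hs with ⟨h1, h2, h3⟩ | ⟨h1, h2⟩
      · exact hne s h1 h2 h3
      · exact h2
    have htne : (slice K k t).Nonempty := by
      rcases ht with ⟨h1, h2, h3⟩ | ⟨h1, h2⟩
      · exact hne t h1 h2 h3
      · exact h2
    have hs0 : 0 ≤ s := hge s hsne
    have hu0 : 0 ≤ u := hs0.trans hsu.le
    have hune : (slice K k u).Nonempty := by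
      obtain ⟨x, hx⟩ := hsne
      obtain ⟨y, hy⟩ := htne
      exact ⟨_, hu' ▸ slice_conv hK k hl0.le hm0.le hlm hx hy⟩
    rcases le_or_gt b u with hbu | hub
    · exact Or.inr ⟨hbu, hune⟩
    refine Or.inl ⟨hu0, hub, hmem' u hu0 hub ?_⟩
    have hs3 : cone d c b s ≤ volume.real (slice K k s) := by
      rcases hs with ⟨h1, h2, h3⟩ | ⟨h1, h2⟩
      · exact h3
      · linarith
    have hsb : s < b := hsu.trans hub
    have hS := hmem s hs0 hsb hs3
    rcases le_or_gt b t with hbt | htb
    · obtain ⟨y, hy⟩ := htne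
      have := bm_point (A := slice K k s) (C := slice K k u) (m := m) hl0 (y := y)
        (fun x hx => hu' ▸ slice_conv hK k hl0.le hm0.le hlm hx hy)
      refine le_trans ?_ this
      refine le_trans ?_ (mul_le_mul_right hS _)
      rw [← ENNReal.ofReal_mul (by positivity)]
      apply ENNReal.ofReal_le_ofReal
      have h1 : 1 - u / b ≤ l * (1 - s / b) := by
        have e : 1 - u / b = l * (1 - s / b) + m * (1 - t / b) := by
          rw [← hu']
          have : (1 : ℝ) = l + m := hlm.symm
          field_simp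
          linear_combination (b : ℝ) * this
        have h2 : m * (1 - t / b) ≤ 0 := by
          apply mul_nonpos_of_nonneg_of_nonpos hm0.le
          rw [sub_nonpos, one_le_div hbp]
          exact hbt
        linarith
      have h2 := hpos u hu0 hub
      calc c * (1 - u / b) ^ d ≤ c * (l * (1 - s / b)) ^ d := by gcongr
        _ = _ := by rw [mul_pow]; ring
    · have ht0 : 0 ≤ t := hge t htne
      have ht3 : cone d c b t ≤ volume.real (slice K k t) := by
        rcases ht with ⟨h1, h2, h3⟩ | ⟨h1, h2⟩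
        · exact h3
        · linarith
      have := bm_scaled (measurableSet_slice hc k s) (measurableSet_slice hc k t)
        (measurableSet_slice hc k u) (hpos s hs0 hsb) (hpos t ht0 htb) hcp hl0 hm0
        (fun x hx y hy => hu' ▸ slice_conv hK k hl0.le hm0.le hlm hx hy) hS (hmem t ht0 htb ht3)
      convert this using 4
      rw [← hu']
      have : (1 : ℝ) = l + m := hlm.symm
      field_simp
      linear_combination (b : ℝ) * this
  · rintro t (⟨h1, h2, h3⟩ | ⟨h1, h2⟩)
    · exact h3
    · rw [hcone' t h1]; exact measureReal_nonneg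
  · intro t h0 ht
    rcases lt_or_ge t b with h | h
    · by_contra hcon
      exact ht (Or.inl ⟨h0, h, (not_le.1 hcon).le⟩)
    · have : slice K k t = ∅ := by
        rw [← not_nonempty_iff_eq_empty]
        exact fun h' => ht (Or.inr ⟨h, h'⟩)
      rw [this, hcone' t h]
      simp

theorem half_slice {K : Set (Fin (d + 1) → ℝ)} (hK : Convex ℝ K) (hc : IsCompact K)
    (k : Fin (d + 1)) (hk : ∀ x ∈ K, 0 ≤ x k) :
    ((d : ℝ) + 2) * volume.real (slice K k 0) * ∫ x in K, x k ≤
      ((d : ℝ) + 1) * volume.real K ^ 2 := by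
  rcases measureReal_nonneg (μ := volume) (s := slice K k 0) |>.eq_or_lt with h0 | hcp
  · rw [← h0, mul_zero, zero_mul]
    positivity
  rcases measureReal_nonneg (μ := volume) (s := K) |>.eq_or_lt with hv0 | hv
  · have hz : volume K = 0 := by
      rcases (ENNReal.toReal_eq_zero_iff _).1 hv0.symm with h | h
      · exact h
      · exact absurd h hc.measure_lt_top.ne
    rw [Measure.restrict_eq_zero.2 hz, integral_zero_measure, mul_zero]
    positivity
  obtain ⟨i0, f0⟩ := fubini_slice hc k (φ := fun _ => 1) continuous_const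
  obtain ⟨i1, f1⟩ := fubini_slice hc k (φ := fun t => t) continuous_id
  simp only [one_mul] at i0 f0
  have f0' : ∫ x in K, (1 : ℝ) = volume.real K := by simp
  rw [f0'] at f0
  have hneg : ∀ t, t < 0 → slice K k t = ∅ := by
    intro t ht
    ext y
    simp only [slice, mem_ofPred_eq, mem_empty_iff_false, iff_false]
    intro h
    have := hk _ h
    simp at this
    linarith
  set F : ℝ → ℝ := fun t => volume.real (slice K k t) with hF
  set c : ℝ := F 0 with hcdef
  set M0 : ℝ := volume.real K with hM0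
  have hdp : (0 : ℝ) < (d : ℝ) + 1 := by positivity
  set b : ℝ := ((d : ℝ) + 1) * M0 / c with hb
  have hbp : 0 < b := by positivity
  obtain ⟨R, T, hT1, hT2, hT3, hT4, hT5⟩ := exists_T hK hc k hk hcp hbp
  have hcone0 : cone d c b 0 = c := by
    unfold cone
    rw [indicator_of_mem (show (0 : ℝ) ∈ Ico 0 b from ⟨le_rfl, hbp⟩)]
    simp
  have h0T : (0 : ℝ) ∈ T := hT5 0 le_rfl hbp (by rw [hcone0])
  have hba : BddAbove T := ⟨R, fun t ht => (hT1 ht).2⟩
  set β := sSup T
  have key : ∀ t, (t - β) * (F t - cone d c b t) ≤ 0 := by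
    intro t
    rcases lt_or_ge t 0 with h0 | h0
    · have h1 : F t = 0 := by
        rw [hF]
        dsimp only
        rw [hneg t h0]
        simp
      rw [h1]
      unfold cone
      rw [indicator_of_notMem (fun h => absurd h.1 (not_le.2 h0))]
      simp
    · by_cases ht : t ∈ T
      · have h2 : t ≤ β := le_csSup hba ht
        have h3 := hT3 t ht
        exact mul_nonpos_of_nonpos_of_nonneg (by linarith) (by rw [hF]; dsimp only; linarith)
      · have h3 := hT4 t h0 ht
        have h4 : β ≤ t := by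
          refine csSup_le ⟨0, h0T⟩ fun s hs => ?_
          by_contra hcon
          push Not at hcon
          exact ht (hT2.out h0T hs ⟨h0, hcon.le⟩)
        exact mul_nonpos_of_nonneg_of_nonpos (by linarith) (by rw [hF]; dsimp only; linarith)
  have hint : ∫ t, (t - β) * (F t - cone d c b t) ≤ 0 := integral_nonpos key
  obtain ⟨j0, g0⟩ := cone_integral d 0 c hbp
  obtain ⟨j1, g1⟩ := cone_integral d 1 c hbp
  rw [cone0] at g0
  rw [cone1] at g1
  simp only [pow_zero, one_mul, pow_one, zero_add] at j0 j1 g0 g1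
  have hexp : ∫ t, (t - β) * (F t - cone d c b t) =
      ((∫ t, t * F t) - ∫ t, t * cone d c b t) - β * ((∫ t, F t) - ∫ t, cone d c b t) := by
    have e1 : ∀ t, (t - β) * (F t - cone d c b t) =
        (t * F t - t * cone d c b t) - β * (F t - cone d c b t) := fun t => by ring
    simp only [e1]
    have k1 : Integrable (fun t => t * F t - t * cone d c b t) := i1.sub j1
    have k0 : Integrable (fun t => β * (F t - cone d c b t)) := (i0.sub j0).const_mul _
    rw [integral_sub k1 k0, integral_const_mul, integral_sub i1 j1, integral_sub i0 j0]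
  rw [hexp, g0, g1, ← f0, ← f1] at hint
  have hcp' : 0 < c := hcp
  have hcb : c * b = ((d : ℝ) + 1) * M0 := by rw [hb, mul_div_cancel₀ _ hcp'.ne']
  have h0 : c * b * (1 / ((d : ℝ) + 1)) = M0 := by rw [hcb]; field_simp
  rw [h0, sub_self, mul_zero, sub_zero] at hint
  have h1 : ((d : ℝ) + 2) * c * (c * b ^ (1 + 1) * (1 / (((d : ℝ) + 1) * (d + 2)))) =
      ((d : ℝ) + 1) * M0 ^ 2 := by
    have e : c * (c * b ^ (1 + 1)) = (((d : ℝ) + 1) * M0) ^ 2 := by
      rw [← hcb]
      ring
    have hd2 : (0 : ℝ) < (d : ℝ) + 2 := by positivity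
    calc ((d : ℝ) + 2) * c * (c * b ^ (1 + 1) * (1 / (((d : ℝ) + 1) * (d + 2)))) =
        ((d : ℝ) + 2) * (c * (c * b ^ (1 + 1))) * (1 / (((d : ℝ) + 1) * (d + 2))) := by ring
      _ = _ := by rw [e]; field_simp
  rw [← h1]
  refine mul_le_mul_of_nonneg_left (by linarith) (by positivity)

end Half

theorem half_ineq {d : ℕ} {K : Set (Fin (d + 1) → ℝ)} (hK : Convex ℝ K) (hc : IsCompact K)
    (hk : ∀ x ∈ K, 0 ≤ x 0) :
    ((d : ℝ) + 2) * (volume (sl K 0)).toReal * ∫ x in K, x 0 ≤
      ((d : ℝ) + 1) * (volume K).toReal ^ 2 := by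
  have h := Half.half_slice hK hc 0 hk
  have e : slice K 0 0 = sl K 0 := by
    unfold slice sl
    simp only [Fin.insertNth_zero']
  rw [e] at h
  exact h

end Vale.Agent.P254.FV1
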