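import Vale.Agent.P254.Unc.Defs2

/-! P254, one free direction: definitions (the coordinate `t` is free, the others are `≥ 0`). -/

open MeasureTheory Set
open scoped NNReal

namespace Vale.Agent.P254.FV1

open Unc

/-- The support functional of the antitone Lipschitz probability densities. -/
noncomputable def Sf {n : ℕ} (f : X n → ℝ) : ℝ := sSup {r : ℝ | ∃ ρ, Dens n ρ ∧ r = ∫ x, f x * ρ x}

/-- Closed downwards in all coordinates except the coordinate `1` (which is free). -/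
def LowE {n : ℕ} (L : Set (X (n + 2))) : Prop := ∀ x ∈ L, ∀ y : X (n + 2), y ≤ x → y 1 = x 1 → y ∈ L

/-- The section `{x_0 = T}`. -/
def sl {d : ℕ} (K : Set (Fin (d + 1) → ℝ)) (T : ℝ) : Set (Fin d → ℝ) :=
  {y | (Fin.cons T y : Fin (d + 1) → ℝ) ∈ K}

/-- The functional inequality with one free variable (the coordinate `0`). -/
def FCX (n : ℕ) : Prop := ∀ (G ρ : X (n + 1) → ℝ) (K M : ℝ≥0), LipschitzWith M G → Rel G G G →
  LipschitzWith K ρ → (∀ x, 0 ≤ ρ x) → (∀ x y, x ≤ y → x 0 = y 0 → ρ y ≤ ρ x) →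
  ∀ T : unitInterval, (T : ℝ) * ∫ x, ρ x = ∫ x, ((x 0 : unitInterval) : ℝ) * ρ x →
    (∫ x, G x * ρ x) * ∏ k : Fin n, (2 * ∫ x, ((x k.succ : unitInterval) : ℝ) * ρ x) ≤
      (∫ x, ρ x) ^ (n + 1) * ∫ x : X n, max (G (Fin.cons T x)) 0

/-- The volume inequality with one free variable, in the cube. Coordinate `0` = fibre,
coordinate `1` = free, coordinates `2, …, n+1` = the others. -/
def FUNC (n : ℕ) : Prop := ∀ L : Set (X (n + 2)), IsClosed L → L.Nonempty → LowE L →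
  (∀ x ∈ L, ∀ y ∈ L, mid x y ∈ L) →
  ∀ T : unitInterval, (T : ℝ) * (volume L).toReal = ∫ x in L, ((x 1 : unitInterval) : ℝ) →
    (2 * ∫ x in L, ((x 0 : unitInterval) : ℝ)) *
        ∏ k : Fin n, (2 * ∫ x in L, ((x k.succ.succ : unitInterval) : ℝ)) ≤
      (volume L).toReal ^ (n + 1) *
        (volume {q : X (n + 1) | (Fin.cons (q 0) (Fin.cons T (Fin.tail q)) : X (n + 2)) ∈ L}).toReal

/-- The volume inequality with one free variable, in `ℝ^(d+1)`, free coordinate `0`. -/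
def FUNCR (d : ℕ) : Prop := ∀ K : Set (Fin (d + 1) → ℝ), IsCompact K → Convex ℝ K → K.Nonempty →
  (∀ x ∈ K, ∀ k : Fin d, 0 ≤ x k.succ) →
  (∀ x ∈ K, ∀ y : Fin (d + 1) → ℝ, y 0 = x 0 → (∀ k : Fin d, 0 ≤ y k.succ ∧ y k.succ ≤ x k.succ) →
    y ∈ K) →
  ∀ T : ℝ, T * (volume K).toReal = ∫ x in K, x 0 →
    ∏ k : Fin d, (2 * ∫ x in K, x k.succ) ≤ (volume K).toReal ^ d * (volume (sl K T)).toReal

end Vale.Agent.P254.FV1
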