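import Vale.Agent.P254.Unc.Ber
import Vale.Agent.P254.FV1.Defs
import Vale.Agent.P254.FV1.Half

/-! P254, one free direction: the variance of the free coordinate against the central section. -/

open MeasureTheory Set
open scoped Pointwise

namespace Vale.Agent.P254.FV1

open Unc

/-- Statement of `half_ineq`. -/
def HalfSt : Prop := ∀ {d : ℕ} {K : Set (Fin (d + 1) → ℝ)}, Convex ℝ K → IsCompact K →
    (∀ x ∈ K, 0 ≤ x 0) →
    ((d : ℝ) + 2) * (volume (sl K 0)).toReal * ∫ x in K, x 0 ≤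
      ((d : ℝ) + 1) * (volume K).toReal ^ 2

variable {d : ℕ}

/-- Splitting of an integral at `x_0 = 0`. -/
lemma split_neg {P : Set (Fin (d + 1) → ℝ)} (hc : IsCompact P)
    {g : (Fin (d + 1) → ℝ) → ℝ} (hg : Continuous g) :
    ∫ x in P, g x = (∫ x in P ∩ {x | 0 ≤ x 0}, g x) + ∫ x in (-P) ∩ {x | 0 ≤ x 0}, g (-x) := by
  have hint : IntegrableOn g P := hg.continuousOn.integrableOn_compact hc
  have hm : MeasurableSet {x : Fin (d + 1) → ℝ | 0 ≤ x 0} :=
    measurableSet_le measurable_const (measurable_pi_apply 0)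
  have h1 : ∫ x in P, g x =
      (∫ x in P ∩ {x | 0 ≤ x 0}, g x) + ∫ x in P \ {x | 0 ≤ x 0}, g x :=
    (integral_inter_add_sdiff hm hint).symm
  have h2 : ∫ x in P \ {x | 0 ≤ x 0}, g x = ∫ x in P ∩ {x | x 0 ≤ 0}, g x := by
    refine setIntegral_congr_set ?_
    have hnull : volume {x : Fin (d + 1) → ℝ | x 0 = 0} = 0 := by
      rw [volume_pi]
      exact Measure.pi_hyperplane _ _ _
    have hae : ∀ᵐ x : Fin (d + 1) → ℝ, x 0 ≠ 0 := by
      rw [ae_iff]
      simpa using hnull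
    filter_upwards [hae] with x hx
    apply propext
    constructor
    · rintro ⟨h3, h4⟩
      have h5 : ¬ 0 ≤ x 0 := h4
      exact ⟨h3, (not_le.1 h5).le⟩
    · rintro ⟨h3, h4⟩
      exact ⟨h3, fun h5 => hx (le_antisymm h4 h5)⟩
  have h3 : ∫ x in P ∩ {x | x 0 ≤ 0}, g x = ∫ x in (-P) ∩ {x | 0 ≤ x 0}, g (-x) := by
    have hmp : MeasurePreserving (fun x : Fin (d + 1) → ℝ => -x) volume volume :=
      Measure.measurePreserving_neg volume
    have he : MeasurableEmbedding (fun x : Fin (d + 1) → ℝ => -x) :=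
      (MeasurableEquiv.neg _).measurableEmbedding
    rw [← hmp.setIntegral_preimage_emb he g (P ∩ {x | x 0 ≤ 0})]
    have e : (fun x : Fin (d + 1) → ℝ => -x) ⁻¹' (P ∩ {x | x 0 ≤ 0}) =
        (-P) ∩ {x | 0 ≤ x 0} := by
      ext x
      simp
    rw [e]
  rw [h1, h2, h3]

lemma real_ineq {S m c κ a b A : ℝ} (hS : 0 ≤ S) (hm : 0 ≤ m) (hc : 0 ≤ c) (hκ : 0 ≤ κ)
    (ha : 0 ≤ a) (h1 : S * m ≤ c * a ^ 2) (h2 : S * m ≤ c * b ^ 2)
    (h3 : a * A ≤ κ * m ^ 2) (h0 : a = 0 → A = 0) : S ^ 2 * A ≤ κ * c ^ 2 * (a * b ^ 2) := by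
  rcases eq_or_lt_of_le ha with h | h
  · rw [h0 h.symm, ← h]
    simp
  · have h4 : (S * m) ^ 2 ≤ (c * a ^ 2) * (c * b ^ 2) := by
      rw [pow_two]
      exact mul_le_mul h1 h2 (by positivity) (by positivity)
    have h5 : a * (S ^ 2 * A) ≤ a * (κ * c ^ 2 * (a * b ^ 2)) := by
      calc a * (S ^ 2 * A) = S ^ 2 * (a * A) := by ring
        _ ≤ S ^ 2 * (κ * m ^ 2) := mul_le_mul_of_nonneg_left h3 (by positivity)
        _ = κ * (S * m) ^ 2 := by ring
        _ ≤ κ * ((c * a ^ 2) * (c * b ^ 2)) := mul_le_mul_of_nonneg_left h4 hκ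
        _ = _ := by ring
    exact le_of_mul_le_mul_left h5 h

/-- The centred case. -/
lemma var_zero (hhalf : HalfSt) {P : Set (Fin (d + 1) → ℝ)} (hP : Convex ℝ P) (hc : IsCompact P)
    (h0 : ∫ x in P, x 0 = 0) :
    (volume (sl P 0)).toReal ^ 2 * ∫ x in P, (x 0) ^ 2 ≤
      ((d : ℝ) + 1) ^ 2 / (2 * ((d : ℝ) + 2) * ((d : ℝ) + 3)) * (volume P).toReal ^ 3 := by
  have hc0 : Continuous fun x : Fin (d + 1) → ℝ => x 0 := continuous_apply 0
  have hcl : IsClosed {x : Fin (d + 1) → ℝ | 0 ≤ x 0} := isClosed_le continuous_const hc0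
  have hcv : Convex ℝ {x : Fin (d + 1) → ℝ | 0 ≤ x 0} := by
    intro x hx y hy a b ha hb _
    have h1 : 0 ≤ x 0 := hx
    have h2 : 0 ≤ y 0 := hy
    show 0 ≤ a * x 0 + b * y 0
    positivity
  set P1 := P ∩ {x : Fin (d + 1) → ℝ | 0 ≤ x 0} with hP1
  set P2 := (-P) ∩ {x : Fin (d + 1) → ℝ | 0 ≤ x 0} with hP2
  have hc1 : IsCompact P1 := hc.inter_right hcl
  have hc2 : IsCompact P2 := hc.neg.inter_right hcl
  have hv1 : Convex ℝ P1 := hP.inter hcv
  have hv2 : Convex ℝ P2 := hP.neg.inter hcv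
  have hn1 : ∀ x ∈ P1, 0 ≤ x 0 := fun x hx => hx.2
  have hn2 : ∀ x ∈ P2, 0 ≤ x 0 := fun x hx => hx.2
  -- the sections
  have hs1 : sl P1 0 = sl P 0 := by
    ext y
    simp [sl, hP1]
  have hs2 : sl P2 0 = -(sl P 0) := by
    ext y
    have e : -(Fin.cons 0 y : Fin (d + 1) → ℝ) = Fin.cons 0 (-y) := by
      funext i
      refine Fin.cases ?_ (fun k => ?_) i
      · simp
      · simp
    simp only [sl, hP2, mem_ofPred_eq, mem_inter_iff, mem_neg, Fin.cons_zero, le_refl, and_true]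
    rw [e]
  have hS2 : (volume (sl P2 0)).toReal = (volume (sl P 0)).toReal := by
    rw [hs2, Measure.measure_neg]
  -- the splittings
  have hvol := split_neg hc (g := fun _ => (1 : ℝ)) continuous_const
  have hmom := split_neg hc (g := fun x => x 0) hc0
  have hsq := split_neg hc (g := fun x => x 0 ^ 2) (by fun_prop)
  simp only [setIntegral_const, smul_eq_mul, mul_one, Measure.real] at hvol
  simp only [Pi.neg_apply, integral_neg, neg_sq] at hmom hsq
  rw [h0] at hmom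
  rw [← hP1, ← hP2] at hvol hmom hsq
  set S := (volume (sl P 0)).toReal with hS
  set a := (volume P1).toReal with ha
  set b := (volume P2).toReal with hb
  have hm12 : ∫ x in P2, x 0 = ∫ x in P1, x 0 := by linarith
  set m := ∫ x in P1, x 0 with hm
  have hS0 : 0 ≤ S := ENNReal.toReal_nonneg
  have ha0 : 0 ≤ a := ENNReal.toReal_nonneg
  have hb0 : 0 ≤ b := ENNReal.toReal_nonneg
  have hm0 : 0 ≤ m := setIntegral_nonneg hc1.measurableSet hn1
  have f1 := hhalf hv1 hc1 hn1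
  have f2 := hhalf hv2 hc2 hn2
  rw [hs1] at f1
  rw [hS2, hm12] at f2
  have g1 := berwald hv1 hc1 0 hn1
  have g2 := berwald hv2 hc2 0 hn2
  rw [hm12] at g2
  push_cast at g1 g2
  have hd : (0 : ℝ) ≤ d := Nat.cast_nonneg d
  set c : ℝ := ((d : ℝ) + 1) / (d + 2) with hcdef
  set κ : ℝ := 2 * ((d : ℝ) + 1 + 1) / ((d : ℝ) + 1 + 2) with hκ
  have k1 : S * m ≤ c * a ^ 2 := by
    rw [hcdef, div_mul_eq_mul_div, le_div_iff₀ (by positivity)]
    linarith
  have k2 : S * m ≤ c * b ^ 2 := by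
    rw [hcdef, div_mul_eq_mul_div, le_div_iff₀ (by positivity)]
    linarith
  have z1 : a = 0 → ∫ x in P1, x 0 ^ 2 = 0 := by
    intro h
    have h' : volume P1 = 0 := by
      rcases (ENNReal.toReal_eq_zero_iff _).1 h with h | h
      · exact h
      · exact absurd h hc1.measure_lt_top.ne
    rw [Measure.restrict_eq_zero.2 h', integral_zero_measure]
  have z2 : b = 0 → ∫ x in P2, x 0 ^ 2 = 0 := by
    intro h
    have h' : volume P2 = 0 := by
      rcases (ENNReal.toReal_eq_zero_iff _).1 h with h | h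
      · exact h
      · exact absurd h hc2.measure_lt_top.ne
    rw [Measure.restrict_eq_zero.2 h', integral_zero_measure]
  have r1 := real_ineq hS0 hm0 (c := c) (κ := κ) (by positivity) (by positivity) ha0 k1 k2 g1 z1
  have r2 := real_ineq hS0 hm0 (c := c) (κ := κ) (by positivity) (by positivity) hb0 k2 k1 g2 z2
  rw [hvol, hsq]
  have e : ((d : ℝ) + 1) ^ 2 / (2 * ((d : ℝ) + 2) * ((d : ℝ) + 3)) = κ * c ^ 2 / 4 := by
    rw [hκ, hcdef]
    field_simp
    ring
  rw [e]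
  have hk0 : 0 ≤ κ * c ^ 2 := by positivity
  have hab : a * b ^ 2 + b * a ^ 2 ≤ (a + b) ^ 3 / 4 := by
    nlinarith [mul_nonneg (add_nonneg ha0 hb0) (sq_nonneg (a - b))]
  calc S ^ 2 * ((∫ x in P1, x 0 ^ 2) + ∫ x in P2, x 0 ^ 2)
      = S ^ 2 * (∫ x in P1, x 0 ^ 2) + S ^ 2 * ∫ x in P2, x 0 ^ 2 := by ring
    _ ≤ κ * c ^ 2 * (a * b ^ 2) + κ * c ^ 2 * (b * a ^ 2) := add_le_add r1 r2
    _ = κ * c ^ 2 * (a * b ^ 2 + b * a ^ 2) := by ring
    _ ≤ κ * c ^ 2 * ((a + b) ^ 3 / 4) := mul_le_mul_of_nonneg_left hab hk0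
    _ = _ := by ring

theorem var_ineq_of_half (hhalf : HalfSt) {K : Set (Fin (d + 1) → ℝ)} (hK : Convex ℝ K)
    (hc : IsCompact K) (T : ℝ) (hT : T * (volume K).toReal = ∫ x in K, x 0) :
    (volume (sl K T)).toReal ^ 2 * ∫ x in K, (x 0 - T) ^ 2 ≤
      ((d : ℝ) + 1) ^ 2 / (2 * ((d : ℝ) + 2) * ((d : ℝ) + 3)) * (volume K).toReal ^ 3 := by
  set c : Fin (d + 1) → ℝ := Fin.cons T 0 with hcdef
  set P : Set (Fin (d + 1) → ℝ) := (fun x => x + c) ⁻¹' K with hPdef
  have hmp : MeasurePreserving (fun x : Fin (d + 1) → ℝ => x + c) volume volume :=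
    measurePreserving_add_right volume c
  have he : MeasurableEmbedding (fun x : Fin (d + 1) → ℝ => x + c) :=
    measurableEmbedding_addRight c
  have hPc : IsCompact P := (Homeomorph.addRight c).isCompact_preimage.2 hc
  have hPv : Convex ℝ P := hK.translate_preimage_left c
  have hvol : volume P = volume K := hmp.measure_preimage_emb he K
  have hint : ∀ g : (Fin (d + 1) → ℝ) → ℝ, ∫ x in P, g (x + c) = ∫ x in K, g x :=
    fun g => hmp.setIntegral_preimage_emb he g K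
  have hsl : sl P 0 = sl K T := by
    ext y
    have e : (Fin.cons 0 y : Fin (d + 1) → ℝ) + c = Fin.cons T y := by
      funext i
      refine Fin.cases ?_ (fun k => ?_) i
      · simp [hcdef]
      · simp [hcdef]
    simp only [sl, hPdef, mem_ofPred_eq, mem_preimage]
    rw [e]
  have hc0 : Continuous fun x : Fin (d + 1) → ℝ => x 0 := continuous_apply 0
  have hcc : c 0 = T := by simp [hcdef]
  have h0 : ∫ x in P, x 0 = 0 := by
    have h1 := hint (fun x => x 0 - T)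
    simp only [Pi.add_apply, hcc, add_sub_cancel_right] at h1
    rw [h1, integral_sub (hc0.continuousOn.integrableOn_compact hc)
      (continuous_const.continuousOn.integrableOn_compact hc), setIntegral_const, smul_eq_mul,
      Measure.real, ← hT]
    ring
  have h2 : ∫ x in P, (x 0) ^ 2 = ∫ x in K, (x 0 - T) ^ 2 := by
    have h1 := hint (fun x => (x 0 - T) ^ 2)
    simpa only [Pi.add_apply, hcc, add_sub_cancel_right] using h1
  have h3 := var_zero hhalf hPv hPc h0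
  rwa [hsl, h2, hvol] at h3

theorem var_ineq {d : ℕ} {K : Set (Fin (d + 1) → ℝ)} (hK : Convex ℝ K) (hc : IsCompact K)
    (_hv : 0 < (volume K).toReal) (T : ℝ) (hT : T * (volume K).toReal = ∫ x in K, x 0) :
    (volume (sl K T)).toReal ^ 2 * ∫ x in K, (x 0 - T) ^ 2 ≤
      ((d : ℝ) + 1) ^ 2 / (2 * ((d : ℝ) + 2) * ((d : ℝ) + 3)) * (volume K).toReal ^ 3 :=
  var_ineq_of_half (fun hK hc hk => half_ineq hK hc hk) hK hc T hT

end Vale.Agent.P254.FV1
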