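import Vale.Agent.P254.FV1.Defs
import Vale.Agent.P254.FV1.Half
import Vale.Agent.P254.FV1.Var
import Vale.Agent.P254.Unc.FinBody

/-!
P254, one free direction: from the volume inequality `FUNCR` and the variance inequality to the
bound of `det Cov / |K| ^ 2`.
-/

open MeasureTheory Set

namespace Vale.Agent.P254.FV1

open Unc

/-- `K` is invariant under the changes of sign of all coordinates except `x_0`. -/
def Sym1 {d : ℕ} (K : Set (Fin (d + 1) → ℝ)) : Prop :=
  ∀ x ∈ K, ∀ y : Fin (d + 1) → ℝ, y 0 = x 0 → (∀ k : Fin d, |y k.succ| = |x k.succ|) → y ∈ K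

namespace Bd

open FB

variable {d : ℕ} {K : Set (Fin (d + 1) → ℝ)}

lemma refl_mem (hu : Sym1 K) (k : Fin d) {x : Fin (d + 1) → ℝ} (hx : x ∈ K) :
    refl k.succ x ∈ K :=
  hu x hx _ (refl_ne (Fin.succ_ne_zero k).symm x) fun i => refl_abs k.succ i.succ x

lemma sym_refl (hu : Sym1 K) (k : Fin d) : refl k.succ ⁻¹' K = K := by
  ext x
  constructor
  · intro h
    have := refl_mem hu k h
    rwa [refl_refl] at this
  · intro h
    exact refl_mem hu k h

lemma reduct1 (hu : Sym1 K) {f : (Fin (d + 1) → ℝ) → ℝ} (hf : IntegrableOn f K)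
    (hfs : ∀ (k : Fin d) x, f (refl k.succ x) = f x) (S : Finset (Fin d)) :
    ∫ x in K, f x = 2 ^ S.card * ∫ x in K ∩ {x | ∀ i ∈ S, 0 ≤ x i.succ}, f x := by
  classical
  induction S using Finset.induction_on with
  | empty => simp
  | insert j S hj ih =>
    rw [ih, Finset.card_insert_of_notMem hj]
    have hinv : refl j.succ ⁻¹' (K ∩ {x | ∀ i ∈ S, 0 ≤ x i.succ}) =
        K ∩ {x | ∀ i ∈ S, 0 ≤ x i.succ} := by
      ext x
      have hx : refl j.succ x ∈ K ↔ x ∈ K := by
        rw [← mem_preimage, sym_refl hu]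
      simp only [mem_preimage, mem_inter_iff, hx, mem_ofPred_eq]
      refine and_congr_right fun _ => forall₂_congr fun i hi => ?_
      have hne : i.succ ≠ j.succ := by
        intro h
        exact hj (Fin.succ_injective d h ▸ hi)
      rw [refl_ne hne]
    have h1 := half j.succ hinv (hf.mono_set inter_subset_left) (hfs j)
    rw [h1]
    have e : K ∩ {x : Fin (d + 1) → ℝ | ∀ i ∈ S, 0 ≤ x i.succ} ∩ {x | 0 ≤ x j.succ} =
        K ∩ {x | ∀ i ∈ insert j S, 0 ≤ x i.succ} := by
      ext x
      simp only [mem_inter_iff, mem_ofPred_eq, Finset.forall_mem_insert]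
      tauto
    rw [e]
    ring

lemma update_mem1 (hc : Convex ℝ K) (hu : Sym1 K) {x : Fin (d + 1) → ℝ} (hx : x ∈ K)
    (k : Fin d) {t : ℝ} (ht : |t| ≤ |x k.succ|) : Function.update x k.succ t ∈ K := by
  set j := k.succ with hj
  by_cases h0 : x j = 0
  · rw [h0, abs_zero, abs_nonpos_iff] at ht
    rw [ht, ← h0, Function.update_eq_self]
    exact hx
  · set s : ℝ := t / x j with hs
    have hs1 : |s| ≤ 1 := by
      rw [hs, abs_div]
      exact div_le_one_of_le₀ ht (abs_nonneg _)
    rw [abs_le] at hs1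
    have hr : refl j x ∈ K := refl_mem hu k hx
    have h := hc hx hr (a := (1 + s) / 2) (b := (1 - s) / 2) (by linarith) (by linarith) (by ring)
    have e : ((1 + s) / 2) • x + ((1 - s) / 2) • refl j x = Function.update x j t := by
      funext i
      by_cases hi : i = j
      · rw [hi, Pi.add_apply, Pi.smul_apply, Pi.smul_apply, refl_self, Function.update_self,
          smul_eq_mul, smul_eq_mul]
        have : s * x j = t := by rw [hs]; field_simp
        linear_combination this
      · rw [Pi.add_apply, Pi.smul_apply, Pi.smul_apply, refl_ne hi, Function.update_of_ne hi,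
          smul_eq_mul, smul_eq_mul]
        ring
    rwa [e] at h

lemma solid1 (hc : Convex ℝ K) (hu : Sym1 K) {x : Fin (d + 1) → ℝ} (hx : x ∈ K)
    {y : Fin (d + 1) → ℝ} (h0 : y 0 = x 0) (hy : ∀ k : Fin d, |y k.succ| ≤ |x k.succ|) : y ∈ K := by
  classical
  have h : ∀ S : Finset (Fin d), (fun i : Fin (d + 1) => if ∃ k ∈ S, k.succ = i then y i else x i) ∈ K := by
    intro S
    induction S using Finset.induction_on with
    | empty => simpa using hx
    | insert j S hj ih =>
      have hnj : ¬ ∃ k ∈ S, k.succ = j.succ := by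
        rintro ⟨k, hk, hkj⟩
        exact hj (Fin.succ_injective d hkj ▸ hk)
      have h1 := update_mem1 hc hu ih j (t := y j.succ) (by simp only [hnj, if_false]; exact hy j)
      have e : Function.update (fun i : Fin (d + 1) => if ∃ k ∈ S, k.succ = i then y i else x i)
          j.succ (y j.succ) = fun i => if ∃ k ∈ insert j S, k.succ = i then y i else x i := by
        funext i
        by_cases hi : i = j.succ
        · subst hi
          simp
        · rw [Function.update_of_ne hi]
          have : (∃ k ∈ insert j S, k.succ = i) ↔ ∃ k ∈ S, k.succ = i := by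
            constructor
            · rintro ⟨k, hk, hki⟩
              rcases Finset.mem_insert.1 hk with rfl | hk
              · exact absurd hki.symm hi
              · exact ⟨k, hk, hki⟩
            · rintro ⟨k, hk, hki⟩
              exact ⟨k, Finset.mem_insert_of_mem hk, hki⟩
          simp only [this]
      rwa [e] at h1
  have h1 := h Finset.univ
  have e : (fun i : Fin (d + 1) => if ∃ k ∈ (Finset.univ : Finset (Fin d)), k.succ = i then y i
      else x i) = y := by
    funext i
    induction i using Fin.cases with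
    | zero =>
      have : ¬ ∃ k ∈ (Finset.univ : Finset (Fin d)), k.succ = (0 : Fin (d + 1)) := by
        rintro ⟨k, _, hk⟩
        exact Fin.succ_ne_zero k hk
      simp only [this, if_false]
      exact h0.symm
    | succ k =>
      have : ∃ l ∈ (Finset.univ : Finset (Fin d)), l.succ = k.succ := ⟨k, Finset.mem_univ _, rfl⟩
      simp only [this, if_true]
  rwa [e] at h1

lemma orth1_closed : IsClosed {x : Fin (d + 1) → ℝ | ∀ k : Fin d, 0 ≤ x k.succ} := by
  have : {x : Fin (d + 1) → ℝ | ∀ k : Fin d, 0 ≤ x k.succ} = ⋂ k : Fin d, {x | 0 ≤ x k.succ} := by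
    ext x; simp
  rw [this]
  exact isClosed_iInter fun i => isClosed_le continuous_const (continuous_apply i.succ)

lemma orth1_convex : Convex ℝ {x : Fin (d + 1) → ℝ | ∀ k : Fin d, 0 ≤ x k.succ} := by
  intro x hx y hy a b ha hb _ k
  have h1 := hx k
  have h2 := hy k
  simp only [Pi.add_apply, Pi.smul_apply, smul_eq_mul]
  positivity

lemma reduct_univ1 (hu : Sym1 K) {f : (Fin (d + 1) → ℝ) → ℝ} (hf : IntegrableOn f K)
    (hfs : ∀ (k : Fin d) x, f (refl k.succ x) = f x) :
    ∫ x in K, f x = 2 ^ d * ∫ x in K ∩ {x | ∀ k : Fin d, 0 ≤ x k.succ}, f x := by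
  have h := reduct1 hu hf hfs Finset.univ
  simpa using h

lemma int_odd1 (hu : Sym1 K) (k : Fin d) {f : (Fin (d + 1) → ℝ) → ℝ}
    (hfs : ∀ x, f (refl k.succ x) = -f x) : ∫ x in K, f x = 0 := by
  have h := refl_int k.succ K f
  rw [sym_refl hu k] at h
  simp_rw [hfs] at h
  rw [integral_neg] at h
  linarith

/-- the diagonal of the covariance matrix -/
lemma cov_diag1 (hu : Sym1 K) :
    covMatrix K = Matrix.diagonal (Fin.cons ((volume K).toReal⁻¹ * ∫ x in K, (x 0 - centroid K 0) ^ 2)
      fun k : Fin d => (volume K).toReal⁻¹ * ∫ x in K, x k.succ ^ 2) := by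
  have hc : ∀ k : Fin d, centroid K k.succ = 0 := by
    intro k
    rw [centroid, int_odd1 hu k (f := fun x => x k.succ) (refl_self k.succ), mul_zero]
  ext i j
  rw [covMatrix, Matrix.diagonal_apply]
  induction i using Fin.cases with
  | zero =>
    induction j using Fin.cases with
    | zero => simp only [if_true, Fin.cons_zero, pow_two]
    | succ k =>
      rw [if_neg (Fin.succ_ne_zero k).symm]
      simp only [hc, sub_zero]
      rw [int_odd1 hu k (f := fun x => (x 0 - centroid K 0) * x k.succ), mul_zero]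
      intro x
      rw [refl_self, refl_ne (Fin.succ_ne_zero k).symm]
      ring
  | succ i =>
    induction j using Fin.cases with
    | zero =>
      rw [if_neg (Fin.succ_ne_zero i)]
      simp only [hc, sub_zero]
      rw [int_odd1 hu i (f := fun x => x i.succ * (x 0 - centroid K 0)), mul_zero]
      intro x
      rw [refl_self, refl_ne (Fin.succ_ne_zero i).symm]
      ring
    | succ j =>
      simp only [hc, sub_zero]
      by_cases hij : i = j
      · subst hij
        simp only [if_true, pow_two, Fin.cons_succ]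
      · have hij' : i.succ ≠ j.succ := fun h => hij (Fin.succ_injective d h)
        rw [if_neg hij', int_odd1 hu i (f := fun x => x i.succ * x j.succ), mul_zero]
        intro x
        rw [refl_self, refl_ne (Ne.symm hij')]
        ring

end Bd

open Bd FB in
theorem fv_body_of {d : ℕ}
    (hvar : ∀ {K : Set (Fin (d + 1) → ℝ)}, Convex ℝ K → IsCompact K → 0 < (volume K).toReal →
      ∀ T : ℝ, T * (volume K).toReal = ∫ x in K, x 0 →
      (volume (sl K T)).toReal ^ 2 * ∫ x in K, (x 0 - T) ^ 2 ≤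
        ((d : ℝ) + 1) ^ 2 / (2 * ((d : ℝ) + 2) * ((d : ℝ) + 3)) * (volume K).toReal ^ 3)
    (h : FUNCR d) {K : Set (Fin (d + 1) → ℝ)} (hK : IsConvexBody K) (hs : Sym1 K) :
    (covMatrix K).det / (volume K).toReal ^ 2 ≤
      ((d : ℝ) + 1) ^ 2 / (2 * ((d : ℝ) + 2) * ((d : ℝ) + 3)) *
        (((d : ℝ) + 2) / (8 * ((d : ℝ) + 3))) ^ d := by
  obtain ⟨hc, hcp, hint⟩ := hK
  have hfin : volume K ≠ ⊤ := hcp.measure_lt_top.ne
  have hV : 0 < (volume K).toReal := by
    refine ENNReal.toReal_pos ?_ hfin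
    have h1 := isOpen_interior.measure_pos volume hint
    exact (h1.trans_le (measure_mono interior_subset)).ne'
  set P : Set (Fin (d + 1) → ℝ) := K ∩ {x | ∀ k : Fin d, 0 ≤ x k.succ} with hP
  have hPc : Convex ℝ P := hc.inter orth1_convex
  have hPk : IsCompact P := hcp.inter_right orth1_closed
  have hVP : (volume K).toReal = 2 ^ d * (volume P).toReal := by
    have h := reduct_univ1 hs (f := fun _ => (1 : ℝ)) (integrableOn_const hfin) (fun _ _ => rfl)
    rw [setIntegral_const, setIntegral_const] at h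
    simpa [Measure.real] using h
  have hI : ∀ f : (Fin (d + 1) → ℝ) → ℝ, Continuous f → (∀ (k : Fin d) x, f (refl k.succ x) = f x) →
      ∫ x in K, f x = 2 ^ d * ∫ x in P, f x := fun f hf hfs =>
    reduct_univ1 hs (hf.continuousOn.integrableOn_compact hcp) hfs
  set T : ℝ := centroid K 0 with hT
  have h2n : (0 : ℝ) < 2 ^ d := by positivity
  have hVp : 0 < (volume P).toReal := by
    rw [hVP] at hV
    exact pos_of_mul_pos_right hV h2n.le
  have hPne : P.Nonempty := by
    rw [nonempty_iff_ne_empty]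
    intro h
    rw [h, measure_empty, ENNReal.toReal_zero] at hVp
    exact lt_irrefl _ hVp
  have hr0 : ∀ (k : Fin d) (x : Fin (d + 1) → ℝ), refl k.succ x 0 = x 0 := fun k x =>
    refl_ne (Fin.succ_ne_zero k).symm x
  have hT1 : T * (volume P).toReal = ∫ x in P, x 0 := by
    have h1 : T * (volume K).toReal = ∫ x in K, x 0 := by
      rw [hT, centroid]
      field_simp
    rw [hI (fun x => x 0) (continuous_apply 0) (fun k x => hr0 k x), hVP] at h1
    have h2 : 2 ^ d * (T * (volume P).toReal) = 2 ^ d * ∫ x in P, x 0 := by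
      rw [← h1]; ring
    exact mul_left_cancel₀ h2n.ne' h2
  have hB : ∫ x in K, (x 0 - T) ^ 2 = 2 ^ d * ∫ x in P, (x 0 - T) ^ 2 :=
    hI (fun x => (x 0 - T) ^ 2) (by fun_prop) (fun k x => by rw [hr0 k x])
  have hA : ∀ k : Fin d, ∫ x in K, x k.succ ^ 2 = 2 ^ d * ∫ x in P, x k.succ ^ 2 := fun k =>
    hI (fun x => x k.succ ^ 2) (by fun_prop) (fun j x => by rw [← sq_abs, refl_abs, sq_abs])
  have hv1 := hvar hPc hPk hVp T hT1
  have hf1 := h P hPk hPc hPne (fun x hx k => hx.2 k)
    (fun x hx y h0 hy => ⟨solid1 hc hs hx.1 h0 (fun k => by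
      rw [abs_of_nonneg (hy k).1, abs_of_nonneg (hx.2 k)]; exact (hy k).2), fun k => (hy k).1⟩) T hT1
  have hb1 : ∀ k : Fin d, (volume P).toReal * ∫ x in P, x k.succ ^ 2 ≤
      2 * ((d : ℝ) + 2) / ((d : ℝ) + 3) * (∫ x in P, x k.succ) ^ 2 := by
    intro k
    have h := berwald hPc hPk k.succ (fun x hx => hx.2 k)
    push_cast at h
    have e1 : ((d : ℝ) + 1 + 1) = (d : ℝ) + 2 := by ring
    have e2 : ((d : ℝ) + 1 + 2) = (d : ℝ) + 3 := by ring
    rw [e1, e2] at h
    exact h
  set v : ℝ := (volume P).toReal with hv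
  set s : ℝ := (volume (sl P T)).toReal with hsd
  set B : ℝ := ∫ x in P, (x 0 - T) ^ 2 with hBd
  set A : Fin d → ℝ := fun k => ∫ x in P, x k.succ ^ 2 with hAd
  set M : Fin d → ℝ := fun k => ∫ x in P, x k.succ with hMd
  have hs0 : 0 ≤ s := ENNReal.toReal_nonneg
  have hB0 : 0 ≤ B := integral_nonneg fun x => sq_nonneg _
  have hA0 : ∀ k, 0 ≤ A k := fun k => integral_nonneg fun x => sq_nonneg _
  have hM0 : ∀ k, 0 ≤ M k := fun k =>
    setIntegral_nonneg hPk.measurableSet fun x hx => hx.2 k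
  set c : ℝ := ((d : ℝ) + 1) ^ 2 / (2 * ((d : ℝ) + 2) * ((d : ℝ) + 3)) with hcd
  have hc0 : 0 ≤ c := by positivity
  set q : ℝ := ((d : ℝ) + 2) / ((d : ℝ) + 3) with hq
  have hq0 : 0 ≤ q := by positivity
  have hb2 : ∀ k, A k / v ≤ 2 * q * (M k / v) ^ 2 := by
    intro k
    have h1 : v * A k ≤ 2 * q * M k ^ 2 := by
      have := hb1 k
      rw [hq]
      calc v * A k ≤ 2 * ((d : ℝ) + 2) / ((d : ℝ) + 3) * M k ^ 2 := this
        _ = _ := by ring
    rw [div_pow, ← mul_div_assoc, div_le_div_iff₀ hVp (by positivity)]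
    nlinarith
  have hdet : (covMatrix K).det = (B / v) * ∏ k, (A k / v) := by
    rw [cov_diag1 hs, Matrix.det_diagonal, Fin.prod_univ_succ]
    simp only [Fin.cons_zero, Fin.cons_succ]
    rw [hB, hVP]
    congr 1
    · field_simp
    · refine Finset.prod_congr rfl fun k _ => ?_
      rw [hA k]
      simp only [hAd]
      field_simp
  have hU : (∏ k, (M k / v)) ≤ s / 2 ^ d := by
    have h1 : ∏ k, (2 * M k) ≤ v ^ d * s := hf1
    rw [Finset.prod_mul_distrib, Finset.prod_const, Finset.card_univ, Fintype.card_fin] at h1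
    rw [Finset.prod_div_distrib, Finset.prod_const, Finset.card_univ, Fintype.card_fin,
      div_le_div_iff₀ (by positivity) h2n]
    linarith
  have hU0 : 0 ≤ ∏ k, (M k / v) := Finset.prod_nonneg fun i _ => div_nonneg (hM0 i) hVp.le
  have h1 : ∏ k, (A k / v) ≤ ∏ k : Fin d, (2 * q * (M k / v) ^ 2) :=
    Finset.prod_le_prod (fun i _ => div_nonneg (hA0 i) hVp.le) fun i _ => hb2 i
  have h2 : ∏ k : Fin d, (2 * q * (M k / v) ^ 2) = (2 * q) ^ d * (∏ k, (M k / v)) ^ 2 := by
    rw [Finset.prod_mul_distrib, Finset.prod_const, Finset.card_univ, Fintype.card_fin,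
      Finset.prod_pow]
  have h3 : (∏ k, (M k / v)) ^ 2 ≤ (s / 2 ^ d) ^ 2 := pow_le_pow_left₀ hU0 hU 2
  have h4 : ∏ k, (A k / v) ≤ (2 * q) ^ d * (s / 2 ^ d) ^ 2 :=
    h1.trans (h2.le.trans (mul_le_mul_of_nonneg_left h3 (by positivity)))
  have h5 : s ^ 2 * B / v ^ 3 ≤ c := by
    rw [div_le_iff₀ (by positivity)]
    exact hv1
  rw [hdet, hVP]
  calc (B / v * ∏ k, (A k / v)) / (2 ^ d * v) ^ 2
      ≤ B / v * ((2 * q) ^ d * (s / 2 ^ d) ^ 2) / (2 ^ d * v) ^ 2 := by
        gcongr
    _ = (s ^ 2 * B / v ^ 3) * (q / 8) ^ d := by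
        have e1 : (2 * q) ^ d = (q / 8) ^ d * 16 ^ d := by
          rw [← mul_pow]; congr 1; ring
        have e2 : (16 : ℝ) ^ d = 2 ^ d * 2 ^ d * (2 ^ d * 2 ^ d) := by
          rw [← mul_pow, ← mul_pow]; norm_num
        rw [e1, e2]
        field_simp
    _ ≤ c * (q / 8) ^ d := by gcongr
    _ = c * (((d : ℝ) + 2) / (8 * ((d : ℝ) + 3))) ^ d := by
        rw [hq, div_div, mul_comm (8 : ℝ)]

/-- The bound of `det Cov / |K| ^ 2` for convex bodies with one free coordinate. -/
theorem fv_body {d : ℕ} (h : FUNCR d) {K : Set (Fin (d + 1) → ℝ)} (hK : IsConvexBody K)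
    (hs : Sym1 K) :
    (covMatrix K).det / (volume K).toReal ^ 2 ≤
      ((d : ℝ) + 1) ^ 2 / (2 * ((d : ℝ) + 2) * ((d : ℝ) + 3)) *
        (((d : ℝ) + 2) / (8 * ((d : ℝ) + 3))) ^ d :=
  fv_body_of (fun hK hc _ T hT => var_ineq_of_half
    (fun {_} {_} h1 h2 h3 => half_ineq h1 h2 h3) hK hc T hT) h hK hs

end Vale.Agent.P254.FV1
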