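import Mathlib

/-! P254, one free direction, L13: the numerical inequality with the factor `(300/299)^(N+2)`. -/

namespace Vale.Agent.P254.FV1.NF

theorem nn_ratio (N : ℕ) (hN : 19 ≤ N) :
    300 * ((N : ℝ) + 2) ^ (2 * N + 1) ≤ 299 * (8 * (N : ℝ) ^ 2 * ((N : ℝ) + 1) ^ (2 * N - 1)) := by
  have hN' : (19 : ℝ) ≤ N := by exact_mod_cast hN
  have hm0 : (0 : ℝ) < (N : ℝ) + 1 := by linarith
  have h1 : (1 + 1 / ((N : ℝ) + 1)) ^ (2 * (N + 1)) ≤ 2.7182818286 ^ 2 := by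
    have h2 : 1 + 1 / ((N : ℝ) + 1) ≤ Real.exp (1 / ((N : ℝ) + 1)) := by
      have := Real.add_one_le_exp (1 / ((N : ℝ) + 1))
      linarith
    have h3 : (1 + 1 / ((N : ℝ) + 1)) ^ (N + 1) ≤ Real.exp 1 := by
      calc (1 + 1 / ((N : ℝ) + 1)) ^ (N + 1) ≤ Real.exp (1 / ((N : ℝ) + 1)) ^ (N + 1) :=
            pow_le_pow_left₀ (by positivity) h2 _
        _ = Real.exp 1 := by
          rw [← Real.exp_nat_mul]
          congr 1
          push_cast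
          field_simp
    rw [mul_comm 2 (N + 1), pow_mul]
    have h6 : 0 ≤ (1 + 1 / ((N : ℝ) + 1)) ^ (N + 1) := by positivity
    exact pow_le_pow_left₀ h6 (h3.trans Real.exp_one_lt_d9.le) 2
  have h4 : ((N : ℝ) + 2) ^ (2 * N + 2) ≤ 2.7182818286 ^ 2 * ((N : ℝ) + 1) ^ (2 * N + 2) := by
    have e : (N : ℝ) + 2 = (1 + 1 / ((N : ℝ) + 1)) * ((N : ℝ) + 1) := by
      field_simp
      ring
    rw [e, mul_pow, show 2 * N + 2 = 2 * (N + 1) by ring]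
    exact mul_le_mul_of_nonneg_right h1 (by positivity)
  have h5 : ((N : ℝ) + 1) ^ (2 * N + 2) = ((N : ℝ) + 1) ^ 3 * ((N : ℝ) + 1) ^ (2 * N - 1) := by
    rw [← pow_add]
    congr 1
    omega
  have h6 : 300 * ((2.7182818286 : ℝ) ^ 2 * ((N : ℝ) + 1) ^ 3) ≤
      299 * (8 * (N : ℝ) ^ 2 * ((N : ℝ) + 2)) := by
    nlinarith [mul_nonneg (sub_nonneg.2 hN') (sq_nonneg (N : ℝ)),
      mul_nonneg (sub_nonneg.2 hN') (sub_nonneg.2 hN')]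
  have h7 : ((N : ℝ) + 2) * (300 * ((N : ℝ) + 2) ^ (2 * N + 1)) ≤
      ((N : ℝ) + 2) * (299 * (8 * (N : ℝ) ^ 2 * ((N : ℝ) + 1) ^ (2 * N - 1))) := by
    calc ((N : ℝ) + 2) * (300 * ((N : ℝ) + 2) ^ (2 * N + 1)) = 300 * ((N : ℝ) + 2) ^ (2 * N + 2) := by
          ring
      _ ≤ 300 * (2.7182818286 ^ 2 * (((N : ℝ) + 1) ^ 3 * ((N : ℝ) + 1) ^ (2 * N - 1))) := by
          rw [← h5]; exact mul_le_mul_of_nonneg_left h4 (by norm_num)
      _ = (300 * (2.7182818286 ^ 2 * ((N : ℝ) + 1) ^ 3)) * ((N : ℝ) + 1) ^ (2 * N - 1) := by ring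
      _ ≤ (299 * (8 * (N : ℝ) ^ 2 * ((N : ℝ) + 2))) * ((N : ℝ) + 1) ^ (2 * N - 1) :=
          mul_le_mul_of_nonneg_right h6 (by positivity)
      _ = _ := by ring
  exact le_of_mul_le_mul_left h7 (by linarith)

theorem fv_num_near {N : ℕ} (hN : 19 ≤ N) :
    ((300 : ℝ) / 299) ^ (N + 2) * ((N : ℝ) ^ 2 * ((N : ℝ) + 1) ^ (2 * N - 1)) <
      2 * 8 ^ (N - 1) * (N.factorial : ℝ) ^ 2 := by
  induction N, hN using Nat.le_induction with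
  | base => norm_num [Nat.factorial]
  | succ n hn ih =>
    have h := nn_ratio n hn
    have e1 : 2 * (n + 1) - 1 = 2 * n + 1 := by omega
    have e2 : n + 1 - 1 = (n - 1) + 1 := by omega
    rw [e1, e2]
    have hq : (0 : ℝ) < ((300 : ℝ) / 299) ^ (n + 2) := by positivity
    calc ((300 : ℝ) / 299) ^ (n + 1 + 2) *
          (((n + 1 : ℕ) : ℝ) ^ 2 * (((n + 1 : ℕ) : ℝ) + 1) ^ (2 * n + 1))
        = ((300 : ℝ) / 299) ^ (n + 2) * (((n : ℝ) + 1) ^ 2 / 299) *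
            (300 * ((n : ℝ) + 2) ^ (2 * n + 1)) := by
          push_cast
          rw [show (n : ℝ) + 1 + 1 = (n : ℝ) + 2 by ring,
            show n + 1 + 2 = (n + 2) + 1 by ring, pow_succ ((300 : ℝ) / 299) (n + 2)]
          ring
      _ ≤ ((300 : ℝ) / 299) ^ (n + 2) * (((n : ℝ) + 1) ^ 2 / 299) *
            (299 * (8 * (n : ℝ) ^ 2 * ((n : ℝ) + 1) ^ (2 * n - 1))) :=
          mul_le_mul_of_nonneg_left h (by positivity)
      _ = 8 * ((n : ℝ) + 1) ^ 2 *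
            (((300 : ℝ) / 299) ^ (n + 2) * ((n : ℝ) ^ 2 * ((n : ℝ) + 1) ^ (2 * n - 1))) := by ring
      _ < 8 * ((n : ℝ) + 1) ^ 2 * (2 * 8 ^ (n - 1) * (n.factorial : ℝ) ^ 2) :=
          mul_lt_mul_of_pos_left ih (by positivity)
      _ = 2 * 8 ^ ((n - 1) + 1) * ((n + 1).factorial : ℝ) ^ 2 := by
          rw [Nat.factorial_succ]; push_cast; ring

/-- the real form; the right-hand side is `FV.simpC (d + 1)` unfolded -/
theorem fv_num_real' {d : ℕ} (hd : 18 ≤ d) :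
    ((300 : ℝ) / 299) ^ ((d + 1) + 2) * (((d : ℝ) + 1) ^ 2 / (2 * ((d : ℝ) + 2) * ((d : ℝ) + 3)) *
      (((d : ℝ) + 2) / (8 * ((d : ℝ) + 3))) ^ d) <
    (((d + 1).factorial : ℝ)) ^ 2 / ((((d + 1 : ℕ) : ℝ) + 1) *
      ((((d + 1 : ℕ) : ℝ) + 1) * (((d + 1 : ℕ) : ℝ) + 2)) ^ (d + 1)) := by
  have h := fv_num_near (N := d + 1) (by omega)
  have e1 : 2 * (d + 1) - 1 = 2 * d + 1 := by omega
  have e2 : d + 1 - 1 = d := by omega
  rw [e1, e2] at h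
  push_cast at h ⊢
  have a1 : (0 : ℝ) < (d : ℝ) + 2 := by positivity
  have a2 : (0 : ℝ) < (d : ℝ) + 3 := by positivity
  have e3 : (d : ℝ) + 1 + 1 = (d : ℝ) + 2 := by ring
  have e4 : (d : ℝ) + 1 + 2 = (d : ℝ) + 3 := by ring
  rw [e3] at h
  rw [e3, e4, lt_div_iff₀ (by positivity)]
  have key : ((300 : ℝ) / 299) ^ (d + 1 + 2) * (((d : ℝ) + 1) ^ 2 / (2 * ((d : ℝ) + 2) * ((d : ℝ) + 3)) *
      (((d : ℝ) + 2) / (8 * ((d : ℝ) + 3))) ^ d) *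
        (((d : ℝ) + 2) * (((d : ℝ) + 2) * ((d : ℝ) + 3)) ^ (d + 1)) =
      (((300 : ℝ) / 299) ^ (d + 1 + 2) * (((d : ℝ) + 1) ^ 2 * ((d : ℝ) + 2) ^ (2 * d + 1))) /
        (2 * 8 ^ d) := by
    have e5 : ((d : ℝ) + 2) ^ (2 * d + 1) = ((d : ℝ) + 2) ^ d * ((d : ℝ) + 2) ^ d * ((d : ℝ) + 2) := by
      ring
    have e6 : (((d : ℝ) + 2) / (8 * ((d : ℝ) + 3))) ^ d =
        ((d : ℝ) + 2) ^ d / (8 ^ d * ((d : ℝ) + 3) ^ d) := by
      rw [div_pow, mul_pow]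
    have e7 : (((d : ℝ) + 2) * ((d : ℝ) + 3)) ^ (d + 1) =
        (((d : ℝ) + 2) ^ d * ((d : ℝ) + 2)) * (((d : ℝ) + 3) ^ d * ((d : ℝ) + 3)) := by
      rw [mul_pow, pow_succ, pow_succ]
    rw [e5, e6, e7]
    have b1 : ((d : ℝ) + 3) ^ d ≠ 0 := by positivity
    have b2 : (8 : ℝ) ^ d ≠ 0 := by positivity
    generalize ((300 : ℝ) / 299) ^ (d + 1 + 2) = q
    generalize ((d : ℝ) + 3) ^ d = A at b1 ⊢
    generalize (8 : ℝ) ^ d = B at b2 ⊢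
    generalize ((d : ℝ) + 2) ^ d = C
    field_simp
  rw [key, div_lt_iff₀ (by positivity)]
  calc _ < _ := h
    _ = _ := by ring

end Vale.Agent.P254.FV1.NF
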