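import Vale.Agent.P254.FV1.Chain
import Vale.Agent.P254.FV1.Body
import Vale.Agent.P254.FV1.NumFin
import Vale.Agent.P254.Unc.Stab2

/-! P254/FV1, final theorems: bodies symmetric in all coordinates but one. -/

open MeasureTheory Set Matrix

namespace Vale.Agent.P254.FV1

/-- The bound for the bodies symmetric in all coordinates but one (`n = d + 1 ≥ 2`). -/
theorem sym1_bound {d : ℕ} (hd : 1 ≤ d) {U : Set (Fin (d + 1) → ℝ)} (hU : IsConvexBody U)
    (hs : Sym1 U) :
    (covMatrix U).det / (volume U).toReal ^ 2 ≤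
      ((d : ℝ) + 1) ^ 2 / (2 * ((d : ℝ) + 2) * ((d : ℝ) + 3)) *
        (((d : ℝ) + 2) / (8 * ((d : ℝ) + 3))) ^ d := by
  obtain ⟨m, rfl⟩ : ∃ m, d = m + 1 := ⟨d - 1, by omega⟩
  exact fv_body (funcr_all m) hU hs

/-- The bodies filling `299/300` of an affine image of a body symmetric in all coordinates but
one, `n ≥ 19`. -/
theorem sym1_near {d : ℕ} (hd : 18 ≤ d) {K U S : Set (Fin (d + 1) → ℝ)} (hK : IsConvexBody K)
    (hS : IsSimplex S) (hU : IsConvexBody U) (hs : Sym1 U)
    {A : Matrix (Fin (d + 1)) (Fin (d + 1)) ℝ} (hA : A.det ≠ 0) {b : Fin (d + 1) → ℝ}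
    (hKU : K ⊆ (fun x => A *ᵥ x + b) '' U)
    (hvol : 299 / 300 * (volume ((fun x => A *ᵥ x + b) '' U)).toReal ≤ (volume K).toReal) :
    isoConst K < isoConst S := by
  refine near_of_bound (by omega) hK hS hU hA hKU (s := 300 / 299) ?_
    (sym1_bound (by omega) hU hs) (NF.fv_num_real' hd)
  have h : 299 / 300 * (volume (aff A b '' U)).toReal ≤ (volume K).toReal := hvol
  linarith

end Vale.Agent.P254.FV1
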