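import Vale.Agent.P254.FV1.Defs
import Vale.Agent.P254.Unc.E1b

/-! P254/FV1, leaf L7 (hedge, helper422): `FCX n → FUNC n`, by the limit `N → ∞`. -/

open MeasureTheory Set Filter Topology
open scoped NNReal

namespace Vale.Agent.P254.FV1

open Unc

namespace CubeH

variable {n : ℕ}

theorem continuous_cons' : Continuous (fun p : unitInterval × X n => (Fin.cons p.1 p.2 : X (n + 1))) := by
  refine continuous_pi fun k => ?_
  refine Fin.cases ?_ (fun j => ?_) k
  · simpa using continuous_fst
  · simp only [Fin.cons_succ]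
    exact (continuous_apply j).comp continuous_snd

theorem cont_coord (m : ℕ) (k : Fin m) : Continuous (fun x : X m => ((x k : unitInterval) : ℝ)) :=
  continuous_subtype_val.comp (continuous_apply k)

theorem abs_coord_le (m : ℕ) (k : Fin m) (x : X m) : |((x k : unitInterval) : ℝ)| ≤ 1 := by
  rw [abs_of_nonneg (x k).2.1]
  exact (x k).2.2

/-- dominated convergence with bound `1` on a cube -/
theorem lim1 {m : ℕ} {F : ℕ → X m → ℝ} {f : X m → ℝ} (hc : ∀ N, Continuous (F N))
    (hb : ∀ N x, |F N x| ≤ 1) (hl : ∀ x, Tendsto (fun N => F N x) atTop (𝓝 (f x))) :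
    Tendsto (fun N => ∫ x, F N x) atTop (𝓝 (∫ x, f x)) := by
  refine tendsto_integral_of_dominated_convergence (fun _ => (1 : ℝ))
    (fun N => (hc N).aestronglyMeasurable) (integrable_const _)
    (fun N => Eventually.of_forall fun x => ?_) (Eventually.of_forall hl)
  rw [Real.norm_eq_abs]
  exact hb N x

/-- dominated convergence with bound `B` on a cube -/
theorem limB {m : ℕ} {F : ℕ → X m → ℝ} {f : X m → ℝ} (B : ℝ) (hc : ∀ N, Continuous (F N))
    (hb : ∀ N x, |F N x| ≤ B) (hl : ∀ x, Tendsto (fun N => F N x) atTop (𝓝 (f x))) :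
    Tendsto (fun N => ∫ x, F N x) atTop (𝓝 (∫ x, f x)) := by
  refine tendsto_integral_of_dominated_convergence (fun _ => B)
    (fun N => (hc N).aestronglyMeasurable) (integrable_const _)
    (fun N => Eventually.of_forall fun x => ?_) (Eventually.of_forall hl)
  rw [Real.norm_eq_abs]
  exact hb N x

theorem core (h : FCX n) {H : X (n + 1) → ℝ} (hH0 : ∀ x, 0 ≤ H x) {g : ℕ → X (n + 1) → ℝ}
    (hlip : ∀ N, ∃ K, LipschitzWith K (g N)) (hrel : ∀ N, Rel (g N) (g N) (g N))
    (hanti : ∀ N x y, x ≤ y → x 0 = y 0 → g N y ≤ g N x) (hle : ∀ N x, g N x ≤ 1)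
    (hge : ∀ N x, 0 < H x → H x ≤ g N x)
    (hlim : ∀ x, Tendsto (fun N => max (g N x) 0) atTop (𝓝 (H x)))
    (T : unitInterval)
    (hT : (T : ℝ) * ∫ x, H x = ∫ x : X (n + 1), ((x 0 : unitInterval) : ℝ) * H x) :
    (∫ x, H x ^ 2) * ∏ k : Fin n, (2 * ∫ x : X (n + 1), ((x k.succ : unitInterval) : ℝ) * H x) ≤
      (∫ x, H x) ^ (n + 1) * ∫ x : X n, H (Fin.cons T x) := by
  set ρ : ℕ → X (n + 1) → ℝ := fun N x => max (g N x) 0 with hρ
  have hgc : ∀ N, Continuous (g N) := fun N => by
    obtain ⟨K, hK⟩ := hlip N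
    exact hK.continuous
  have hc : ∀ N, Continuous (ρ N) := fun N => (hgc N).max continuous_const
  have hρ0 : ∀ N x, 0 ≤ ρ N x := fun N x => le_max_right _ _
  have hb : ∀ N x, |ρ N x| ≤ 1 := by
    intro N x
    rw [abs_of_nonneg (hρ0 N x)]
    exact max_le (hle N x) zero_le_one
  have hH1 : ∀ x, H x ≤ 1 := fun x =>
    le_of_tendsto' (hlim x) (fun N => max_le (hle N x) zero_le_one)
  have hHm : Measurable H :=
    measurable_of_tendsto_metrizable (f := ρ) (fun N => (hc N).measurable)
      (tendsto_pi_nhds.2 hlim)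
  have hHb : ∀ x, |H x| ≤ 1 := fun x => by rw [abs_of_nonneg (hH0 x)]; exact hH1 x
  have hHi : Integrable H := Integrable.of_bound (C := 1) hHm.aestronglyMeasurable
    (Eventually.of_forall fun x => by rw [Real.norm_eq_abs]; exact hHb x)
  have hI0 : 0 ≤ ∫ x, H x := integral_nonneg hH0
  have hR0 : 0 ≤ ∫ x : X n, H (Fin.cons T x) := integral_nonneg fun x => hH0 _
  have hP0 : 0 ≤ ∏ k : Fin n, (2 * ∫ x : X (n + 1), ((x k.succ : unitInterval) : ℝ) * H x) := by
    refine Finset.prod_nonneg fun k _ => ?_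
    have : 0 ≤ ∫ x : X (n + 1), ((x k.succ : unitInterval) : ℝ) * H x :=
      integral_nonneg fun x => mul_nonneg (x k.succ).2.1 (hH0 x)
    positivity
  rcases hI0.eq_or_lt with hz | hpos
  · -- `H = 0` a.e.
    have h0 : H =ᵐ[volume] 0 := (integral_eq_zero_iff_of_nonneg hH0 hHi).1 hz.symm
    have h1 : ∫ x, H x ^ 2 = 0 := by
      have : (fun x => H x ^ 2) =ᵐ[volume] fun _ => (0 : ℝ) := by
        filter_upwards [h0] with x hx
        simp [hx]
      rw [integral_congr_ae this]
      simp
    rw [h1, zero_mul]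
    exact mul_nonneg (pow_nonneg hI0 _) hR0
  · -- limits
    have l1 : Tendsto (fun N => ∫ x, ρ N x) atTop (𝓝 (∫ x, H x)) := lim1 hc hb hlim
    have lk : ∀ k : Fin (n + 1), Tendsto (fun N => ∫ x : X (n + 1), ((x k : unitInterval) : ℝ) * ρ N x)
        atTop (𝓝 (∫ x : X (n + 1), ((x k : unitInterval) : ℝ) * H x)) := by
      intro k
      refine lim1 (fun N => (cont_coord _ k).mul (hc N)) (fun N x => ?_) (fun x => (hlim x).const_mul _)
      rw [abs_mul]
      exact mul_le_one₀ (abs_coord_le _ k x) (abs_nonneg _) (hb N x)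
    have hev : ∀ᶠ N in atTop, 0 < ∫ x, ρ N x := l1.eventually (lt_mem_nhds hpos)
    -- the barycenters
    set τ : ℕ → ℝ := fun N => (∫ x : X (n + 1), ((x 0 : unitInterval) : ℝ) * ρ N x) / ∫ x, ρ N x with hτ
    have hρi : ∀ N, Integrable (ρ N) := fun N =>
      (hc N).integrable_of_hasCompactSupport (HasCompactSupport.of_compactSpace _)
    have hτ0 : ∀ N, 0 ≤ τ N := fun N =>
      div_nonneg (integral_nonneg fun x => mul_nonneg (x 0).2.1 (hρ0 N x)) (integral_nonneg (hρ0 N))
    have hτ1 : ∀ N, τ N ≤ 1 := by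
      intro N
      refine div_le_one_of_le₀ ?_ (integral_nonneg (hρ0 N))
      refine integral_mono ?_ (hρi N) fun x => ?_
      · exact ((cont_coord _ 0).mul (hc N)).integrable_of_hasCompactSupport
          (HasCompactSupport.of_compactSpace _)
      · exact mul_le_of_le_one_left (hρ0 N x) (x 0).2.2
    set TN : ℕ → unitInterval := fun N => ⟨τ N, hτ0 N, hτ1 N⟩ with hTN
    have hτlim : Tendsto τ atTop (𝓝 (T : ℝ)) := by
      have h1 : Tendsto τ atTop (𝓝 ((∫ x : X (n + 1), ((x 0 : unitInterval) : ℝ) * H x) / ∫ x, H x)) :=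
        (lk 0).div l1 hpos.ne'
      have h2 : (∫ x : X (n + 1), ((x 0 : unitInterval) : ℝ) * H x) / (∫ x, H x) = T := by
        rw [← hT]
        field_simp
      rwa [h2] at h1
    have hTNlim : Tendsto TN atTop (𝓝 T) := by
      rw [tendsto_subtype_rng]
      exact hτlim
    -- the inequality for fixed `G = g M`
    have main : ∀ M, (∫ x, H x ^ 2) *
        ∏ k : Fin n, (2 * ∫ x : X (n + 1), ((x k.succ : unitInterval) : ℝ) * H x) ≤
        (∫ x, H x) ^ (n + 1) * ∫ x : X n, max (g M (Fin.cons T x)) 0 := by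
      intro M
      obtain ⟨KM, hKM⟩ := hlip M
      -- bound of `g M`
      obtain ⟨B, hB⟩ : ∃ B : ℝ, ∀ x, |g M x| ≤ B := by
        obtain ⟨B, hB⟩ := isCompact_univ.exists_bound_of_continuousOn (hgc M).continuousOn
        exact ⟨B, fun x => by simpa using hB x (mem_univ x)⟩
      have hB0 : 0 ≤ B := (abs_nonneg _).trans (hB (fun _ => 0))
      have step : ∀ᶠ N in atTop, (∫ x, g M x * ρ N x) *
          ∏ k : Fin n, (2 * ∫ x : X (n + 1), ((x k.succ : unitInterval) : ℝ) * ρ N x) ≤
          (∫ x, ρ N x) ^ (n + 1) * ∫ x : X n, max (g M (Fin.cons (TN N) x)) 0 := by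
        filter_upwards [hev] with N hN
        obtain ⟨KN, hKN⟩ := hlip N
        refine h (g M) (ρ N) KN KM hKM (hrel M) (hKN.max_const 0) (hρ0 N) ?_ (TN N) ?_
        · intro x y hxy h0
          exact max_le_max (hanti N x y hxy h0) le_rfl
        · show τ N * _ = _
          rw [hτ]
          field_simp
      have a1 : Tendsto (fun N => ∫ x, g M x * ρ N x) atTop (𝓝 (∫ x, g M x * H x)) := by
        refine limB B (fun N => (hgc M).mul (hc N)) (fun N x => ?_) (fun x => (hlim x).const_mul _)
        rw [abs_mul]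
        calc |g M x| * |ρ N x| ≤ B * 1 := mul_le_mul (hB x) (hb N x) (abs_nonneg _) hB0
          _ = B := mul_one B
      have a2 : Tendsto (fun N => (∫ x, g M x * ρ N x) *
          ∏ k : Fin n, (2 * ∫ x : X (n + 1), ((x k.succ : unitInterval) : ℝ) * ρ N x)) atTop
          (𝓝 ((∫ x, g M x * H x) *
            ∏ k : Fin n, (2 * ∫ x : X (n + 1), ((x k.succ : unitInterval) : ℝ) * H x))) :=
        a1.mul (tendsto_finsetProd _ fun k _ => (lk k.succ).const_mul 2)
      have a3 : Tendsto (fun N => ∫ x : X n, max (g M (Fin.cons (TN N) x)) 0) atTop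
          (𝓝 (∫ x : X n, max (g M (Fin.cons T x)) 0)) := by
        refine lim1 (fun N => ?_) (fun N x => ?_) (fun x => ?_)
        · exact ((hgc M).comp (continuous_cons'.comp (continuous_const.prodMk continuous_id))).max
            continuous_const
        · rw [abs_of_nonneg (le_max_right _ _)]
          exact max_le (hle M _) zero_le_one
        · have hcc : Continuous (fun t : unitInterval => max (g M (Fin.cons t x)) 0) :=
            ((hgc M).comp (continuous_cons'.comp (continuous_id.prodMk continuous_const))).max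
              continuous_const
          exact (hcc.tendsto T).comp hTNlim
      have a4 := le_of_tendsto_of_tendsto a2 ((l1.pow (n + 1)).mul a3) step
      refine le_trans ?_ a4
      refine mul_le_mul_of_nonneg_right ?_ hP0
      refine integral_mono ?_ ?_ fun x => ?_
      · refine Integrable.of_bound (C := 1) (hHm.pow_const 2).aestronglyMeasurable
          (Eventually.of_forall fun x => ?_)
        rw [Real.norm_eq_abs, abs_pow]
        exact pow_le_one₀ (abs_nonneg _) (hHb x)
      · refine Integrable.of_bound (C := B) ((hgc M).measurable.mul hHm).aestronglyMeasurable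
          (Eventually.of_forall fun x => ?_)
        rw [Real.norm_eq_abs, abs_mul]
        calc |g M x| * |H x| ≤ B * 1 := mul_le_mul (hB x) (hHb x) (abs_nonneg _) hB0
          _ = B := mul_one B
      · show H x ^ 2 ≤ g M x * H x
        rcases (hH0 x).eq_or_lt with hx | hx
        · rw [← hx]; simp
        · rw [pow_two]
          exact mul_le_mul_of_nonneg_right (hge M x hx) hx.le
    have b1 : Tendsto (fun M => ∫ x : X n, max (g M (Fin.cons T x)) 0) atTop
        (𝓝 (∫ x : X n, H (Fin.cons T x))) := by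
      refine lim1 (fun N => ?_) (fun N x => ?_) (fun x => hlim _)
      · exact ((hgc N).comp (continuous_cons'.comp (continuous_const.prodMk continuous_id))).max
          continuous_const
      · rw [abs_of_nonneg (le_max_right _ _)]
        exact max_le (hle N _) zero_le_one
    exact ge_of_tendsto' (b1.const_mul _) main

end CubeH

/-- L7 with L5, L6 as hypotheses. -/
theorem func_of_fcx_of (n : ℕ)
    (hsup : ∀ L : Set (X (n + 2)), IsClosed L → L.Nonempty → LowE L →
      (∀ x ∈ L, ∀ y ∈ L, mid x y ∈ L) →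
      ∃ g : ℕ → X (n + 1) → ℝ, (∀ N, ∃ K, LipschitzWith K (g N)) ∧ (∀ N, Rel (g N) (g N) (g N)) ∧
        (∀ N x y, x ≤ y → x 0 = y 0 → g N y ≤ g N x) ∧ (∀ N x, g N x ≤ 1) ∧
        (∀ N x, 0 < Hf L x → Hf L x ≤ g N x) ∧
        ∀ x, Tendsto (fun N => max (g N x) 0) atTop (𝓝 (Hf L x)))
    (hzero : ∀ L : Set (X (n + 2)), IsClosed L → LowE L →
      2 * ∫ p in L, ((p 0 : unitInterval) : ℝ) = ∫ x : X (n + 1), Hf L x ^ 2)
    (hsec : ∀ L : Set (X (n + 2)), IsClosed L → ∀ T : unitInterval,
      (volume {q : X (n + 1) |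
        (Fin.cons (q 0) (Fin.cons T (Fin.tail q)) : X (n + 2)) ∈ L}).toReal =
        ∫ x : X n, Hf L (Fin.cons T x))
    (h : FCX n) : FUNC n := by
  intro L hL hne hlow hmid T hT
  obtain ⟨g, hlip, hrel, hanti, hle, hge, hlim⟩ := hsup L hL hne hlow hmid
  have hT' : (T : ℝ) * ∫ x, Hf L x = ∫ x : X (n + 1), ((x 0 : unitInterval) : ℝ) * Hf L x := by
    rw [← fub_vol L hL, hT]
    exact fub_succ L hL 0
  have h1 := CubeH.core h (fun x => Hf_nonneg L x) hlip hrel hanti hle hge hlim T hT'
  rw [hzero L hL hlow, fub_vol L hL, hsec L hL T]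
  simp only [fub_succ L hL]
  exact h1

end Vale.Agent.P254.FV1
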