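import Vale.Agent.P254.FV1.Defs
import Vale.Agent.P254.Unc.E1b

/-! P254, one free direction, leaf L6: Fubini for closed sets which are closed downwards in all
coordinates except the coordinate `1`. -/

open MeasureTheory Set
open scoped NNReal

namespace Vale.Agent.P254.FV1

open Unc

variable {n : ℕ}

/-- The fibres in the direction of the coordinate `0` are lower sets. -/
theorem fib_isLowerSetF {L : Set (X (n + 2))} (hlow : LowE L) (x : X (n + 1)) :
    IsLowerSet {t : unitInterval | (Fin.cons t x : X (n + 2)) ∈ L} := by
  intro s t hts hs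
  refine hlow _ hs _ ?_ ?_
  · intro k
    refine Fin.cases ?_ (fun j => ?_) k
    · simpa using hts
    · simp
  · have h1 : (1 : Fin (n + 2)) = Fin.succ 0 := rfl
    rw [h1, Fin.cons_succ, Fin.cons_succ]

theorem fub_zeroF (L : Set (X (n + 2))) (hL : IsClosed L) (hlow : LowE L) :
    2 * ∫ p in L, ((p 0 : unitInterval) : ℝ) = ∫ x : X (n + 1), Hf L x ^ 2 := by
  have h : ∫ z in L, ((z 0 : unitInterval) : ℝ) = ∫ x, (Hf L x) ^ 2 / 2 := by
    rw [setIntegral_cons hL.measurableSet (integrable_coord (n + 2) 0)]
    refine integral_congr_ae (Filter.Eventually.of_forall fun x => ?_)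
    simp only [Fin.cons_zero]
    exact integral_id_lower (fib_isClosed hL x) (fib_isLowerSetF hlow x)
  rw [h, ← integral_const_mul]
  refine integral_congr_ae (Filter.Eventually.of_forall fun x => ?_)
  simp only
  ring

theorem fub_sec (L : Set (X (n + 2))) (hL : IsClosed L) (T : unitInterval) :
    (volume {q : X (n + 1) | (Fin.cons (q 0) (Fin.cons T (Fin.tail q)) : X (n + 2)) ∈ L}).toReal =
      ∫ x : X n, Hf L (Fin.cons T x) := by
  have hS : IsClosed
      {q : X (n + 1) | (Fin.cons (q 0) (Fin.cons T (Fin.tail q)) : X (n + 2)) ∈ L} := by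
    refine hL.preimage ?_
    refine continuous_pi fun k => ?_
    refine Fin.cases ?_ (fun j => ?_) k
    · simpa using continuous_apply (0 : Fin (n + 1))
    · refine Fin.cases ?_ (fun i => ?_) j
      · simpa using continuous_const
      · simpa [Fin.tail] using continuous_apply (Fin.succ i)
  rw [vol_eq_integral_Hf hS]
  refine integral_congr_ae (Filter.Eventually.of_forall fun x => ?_)
  simp [Hf]

end Vale.Agent.P254.FV1
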