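import Vale.Agent.P254.FV1.Defs
import Vale.Agent.P254.Unc.E2

/-! P254/FV1, L8: from the cube to `ℝ^(d+1)`. -/

open MeasureTheory Set Filter Topology
open scoped NNReal Pointwise

namespace Vale.Agent.P254.FV1

open Unc

variable {n d : ℕ}

/-- The inclusion of the cube with the coordinates `0` and `1` exchanged. -/
private def inc01 (x : X (n + 2)) : Fin (n + 2) → ℝ :=
  fun k => ((x (Equiv.swap 0 1 k) : unitInterval) : ℝ)

private lemma inc01_eq : (inc01 : X (n + 2) → Fin (n + 2) → ℝ) =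
    inc ∘ (MeasurableEquiv.arrowCongr' (Equiv.swap (0 : Fin (n + 2)) 1)
      (MeasurableEquiv.refl unitInterval)) := by
  funext x k
  simp [inc01, inc, MeasurableEquiv.arrowCongr', Equiv.arrowCongr', Equiv.arrowCongr]

private lemma mp01 : MeasurePreserving (inc01 : X (n + 2) → Fin (n + 2) → ℝ) volume
    (volume.restrict (Icc 0 1)) := by
  rw [inc01_eq]
  exact (measurePreserving_inc (n + 2)).comp
    (volume_preserving_arrowCongr' _ _ (MeasurePreserving.id _))

private lemma me01 : MeasurableEmbedding (inc01 : X (n + 2) → Fin (n + 2) → ℝ) := by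
  rw [inc01_eq]
  exact measurableEmbedding_inc.comp (MeasurableEquiv.measurableEmbedding _)

private lemma cont01 : Continuous (inc01 : X (n + 2) → Fin (n + 2) → ℝ) := by
  unfold inc01
  fun_prop

private lemma inc01_zero (x : X (n + 2)) : inc01 x 0 = ((x 1 : unitInterval) : ℝ) := by
  simp [inc01]

private lemma inc01_one (x : X (n + 2)) : inc01 x 1 = ((x 0 : unitInterval) : ℝ) := by
  simp [inc01]

private lemma inc01_succ (x : X (n + 2)) (k : Fin n) :
    inc01 x k.succ.succ = ((x k.succ.succ : unitInterval) : ℝ) := by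
  have h1 : k.succ.succ ≠ 0 := Fin.succ_ne_zero _
  have h2 : k.succ.succ ≠ 1 := by
    rw [← Fin.succ_zero_eq_one]
    exact fun h => Fin.succ_ne_zero _ (Fin.succ_injective _ h)
  simp [inc01, Equiv.swap_apply_of_ne_of_ne h1 h2]

/-- The case of the unit cube. -/
private lemma unitCase (h : FUNC n) (K : Set (Fin (n + 2) → ℝ)) (hK : IsCompact K)
    (hc : Convex ℝ K) (hne : K.Nonempty) (hsub : K ⊆ Icc 0 1)
    (hlow : ∀ x ∈ K, ∀ y : Fin (n + 2) → ℝ, y 0 = x 0 →
      (∀ k : Fin (n + 1), 0 ≤ y k.succ ∧ y k.succ ≤ x k.succ) → y ∈ K)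
    (T : ℝ) (hT : T * (volume K).toReal = ∫ x in K, x 0) :
    ∏ k : Fin (n + 1), (2 * ∫ x in K, x k.succ) ≤
      (volume K).toReal ^ (n + 1) * (volume (sl K T)).toReal := by
  have hvK : volume K ≠ ⊤ := hK.measure_ne_top
  rcases eq_or_ne (volume K) 0 with h0 | h0
  · have : ∀ k : Fin (n + 1), ∫ x in K, x k.succ = 0 := fun k =>
      setIntegral_measure_zero _ h0
    simp [this, h0]
  have hpos : 0 < (volume K).toReal := ENNReal.toReal_pos h0 hvK
  have hint0 : IntegrableOn (fun x : Fin (n + 2) → ℝ => x 0) K :=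
    (continuous_apply 0).continuousOn.integrableOn_compact hK
  have hT0 : 0 ≤ T := by
    have : 0 ≤ ∫ x in K, x 0 :=
      setIntegral_nonneg hK.measurableSet fun x hx => (hsub hx).1 0
    rw [← hT] at this
    exact nonneg_of_mul_nonneg_left this hpos
  have hT1 : T ≤ 1 := by
    have : ∫ x in K, x 0 ≤ ∫ x in K, (1 : ℝ) := by
      refine setIntegral_mono_on hint0 (by simp [hvK.lt_top]) hK.measurableSet fun x hx => (hsub hx).2 0
    rw [← hT] at this
    simp only [integral_const, smul_eq_mul, mul_one, measureReal_def,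
      Measure.restrict_apply_univ] at this
    exact le_of_mul_le_mul_right (by linarith) hpos
  have hmp := mp01 (n := n)
  have hr : (volume.restrict (Icc (0 : Fin (n + 2) → ℝ) 1)).restrict K = volume.restrict K :=
    Measure.restrict_restrict_of_subset hsub
  have hint : ∀ f : (Fin (n + 2) → ℝ) → ℝ, ∫ x in (inc01 : X (n + 2) → Fin (n + 2) → ℝ) ⁻¹' K,
      f (inc01 x) = ∫ x in K, f x := by
    intro f
    have := hmp.setIntegral_preimage_emb me01 f K
    rw [hr] at this
    exact this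
  have hvol : volume ((inc01 : X (n + 2) → Fin (n + 2) → ℝ) ⁻¹' K) = volume K := by
    rw [hmp.measure_preimage_emb me01, Measure.restrict_apply' measurableSet_Icc,
      inter_eq_left.2 hsub]
  have i0 : ∫ x in (inc01 : X (n + 2) → Fin (n + 2) → ℝ) ⁻¹' K, ((x 0 : unitInterval) : ℝ) =
      ∫ x in K, x 1 := by
    rw [← hint (fun x => x 1)]
    simp only [inc01_one]
  have i1 : ∫ x in (inc01 : X (n + 2) → Fin (n + 2) → ℝ) ⁻¹' K, ((x 1 : unitInterval) : ℝ) =
      ∫ x in K, x 0 := by
    rw [← hint (fun x => x 0)]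
    simp only [inc01_zero]
  have i2 : ∀ k : Fin n, ∫ x in (inc01 : X (n + 2) → Fin (n + 2) → ℝ) ⁻¹' K,
      ((x k.succ.succ : unitInterval) : ℝ) = ∫ x in K, x k.succ.succ := by
    intro k
    rw [← hint (fun x => x k.succ.succ)]
    simp only [inc01_succ]
  have hsec : volume {q : X (n + 1) | (Fin.cons (q 0) (Fin.cons (⟨T, hT0, hT1⟩ : unitInterval)
      (Fin.tail q)) : X (n + 2)) ∈ (inc01 : X (n + 2) → Fin (n + 2) → ℝ) ⁻¹' K} =
      volume (sl K T) := by
    have e : {q : X (n + 1) | (Fin.cons (q 0) (Fin.cons (⟨T, hT0, hT1⟩ : unitInterval)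
        (Fin.tail q)) : X (n + 2)) ∈ (inc01 : X (n + 2) → Fin (n + 2) → ℝ) ⁻¹' K} =
        inc ⁻¹' (sl K T) := by
      ext q
      simp only [mem_preimage, sl]
      change _ ∈ K ↔ _ ∈ K
      have : inc01 (Fin.cons (q 0) (Fin.cons (⟨T, hT0, hT1⟩ : unitInterval)
        (Fin.tail q)) : X (n + 2)) = (Fin.cons T (inc q) : Fin (n + 2) → ℝ) := by
        funext k
        refine Fin.cases ?_ (fun k => ?_) k
        · rw [inc01_zero]
          rw [← Fin.succ_zero_eq_one]
          simp only [Fin.cons_succ, Fin.cons_zero]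
        · refine Fin.cases ?_ (fun k => ?_) k
          · rw [Fin.succ_zero_eq_one, inc01_one, ← Fin.succ_zero_eq_one]
            simp only [Fin.cons_succ, Fin.cons_zero, inc]
          · rw [inc01_succ]
            simp only [Fin.cons_succ, inc, Fin.tail]
      rw [this]
    rw [e, (measurePreserving_inc (n + 1)).measure_preimage_emb measurableEmbedding_inc,
      Measure.restrict_apply' measurableSet_Icc, inter_eq_left.2]
    intro y hy
    have := hsub hy
    constructor
    · intro k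
      have := this.1 k.succ
      simpa using this
    · intro k
      have := this.2 k.succ
      simpa using this
  have := h ((inc01 : X (n + 2) → Fin (n + 2) → ℝ) ⁻¹' K) (hK.isClosed.preimage cont01) ?_ ?_ ?_
    ⟨T, hT0, hT1⟩ ?_
  · rw [hsec, hvol, i0] at this
    simp only [i2] at this
    rw [Fin.prod_univ_succ]
    exact this
  · obtain ⟨x, hx⟩ := hne
    refine ⟨fun k => ⟨x (Equiv.swap 0 1 k), (hsub hx).1 _, (hsub hx).2 _⟩, ?_⟩
    have : inc01 (fun k => (⟨x (Equiv.swap 0 1 k), (hsub hx).1 _, (hsub hx).2 _⟩ : unitInterval)) =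
        x := by
      funext k
      simp [inc01]
    rw [mem_preimage, this]
    exact hx
  · intro x hx y hyx h1
    refine hlow _ hx _ ?_ fun k => ?_
    · rw [inc01_zero, inc01_zero, h1]
    · exact ⟨(y _).2.1, hyx _⟩
  · intro x hx y hy
    have := hc hx hy (by norm_num : (0 : ℝ) ≤ 1 / 2) (by norm_num : (0 : ℝ) ≤ 1 / 2) (by norm_num)
    have e : inc01 (mid x y) = (1 / 2 : ℝ) • inc01 x + (1 / 2 : ℝ) • inc01 y := by
      funext k
      simp only [inc01, mid, mid1, Pi.add_apply, Pi.smul_apply, smul_eq_mul]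
      ring
    simpa only [mem_preimage, e] using this
  · rw [i1, hvol]
    exact hT

/-- The inequality. -/
private def PP (K : Set (Fin (d + 1) → ℝ)) : Prop :=
  ∀ T : ℝ, T * (volume K).toReal = ∫ x in K, x 0 →
    ∏ k : Fin d, (2 * ∫ x in K, x k.succ) ≤ (volume K).toReal ^ d * (volume (sl K T)).toReal

/-- Scaling. -/
private lemma scaleCase {K : Set (Fin (d + 1) → ℝ)} {R : ℝ} (hR : 0 < R)
    (h : PP (R⁻¹ • K)) : PP K := by
  intro T hT
  have hR0 : R ≠ 0 := hR.ne'
  have hK' : R • (R⁻¹ • K) = K := smul_inv_smul₀ hR0 K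
  have hint : ∀ k : Fin (d + 1), ∫ x in K, x k = R ^ (d + 2) * ∫ x in R⁻¹ • K, x k := by
    intro k
    have := Measure.setIntegral_comp_smul (μ := (volume : Measure (Fin (d + 1) → ℝ)))
      (fun x : Fin (d + 1) → ℝ => x k) (R⁻¹ • K) hR0
    rw [hK'] at this
    simp only [Pi.smul_apply, smul_eq_mul, Module.finrank_fintype_fun_eq_card,
      Fintype.card_fin, integral_const_mul] at this
    rw [abs_of_pos (by positivity)] at this
    have hRn : R ^ (d + 1) ≠ 0 := pow_ne_zero _ hR0
    rw [pow_succ, mul_assoc, this, mul_inv_cancel_left₀ hRn]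
  have hvol : (volume K).toReal = R ^ (d + 1) * (volume (R⁻¹ • K)).toReal := by
    conv_lhs => rw [← hK']
    rw [Measure.addHaar_smul, ENNReal.toReal_mul, ENNReal.toReal_ofReal (abs_nonneg _),
      abs_of_pos (by positivity)]
    simp
  have hsl : (volume (sl K T)).toReal = R ^ d * (volume (sl (R⁻¹ • K) (R⁻¹ * T))).toReal := by
    have e : sl K T = R • sl (R⁻¹ • K) (R⁻¹ * T) := by
      ext y
      rw [mem_smul_set_iff_inv_smul_mem₀ hR0]
      change (Fin.cons T y : Fin (d + 1) → ℝ) ∈ K ↔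
        (Fin.cons (R⁻¹ * T) (R⁻¹ • y) : Fin (d + 1) → ℝ) ∈ R⁻¹ • K
      rw [mem_inv_smul_set_iff₀ hR0]
      have : R • (Fin.cons (R⁻¹ * T) (R⁻¹ • y) : Fin (d + 1) → ℝ) = Fin.cons T y := by
        funext k
        refine Fin.cases ?_ (fun k => ?_) k
        · simp [mul_inv_cancel_left₀ hR0]
        · simp [mul_inv_cancel_left₀ hR0]
      rw [this]
    rw [e, Measure.addHaar_smul, ENNReal.toReal_mul, ENNReal.toReal_ofReal (abs_nonneg _),
      abs_of_pos (by positivity)]
    simp
  have := h (R⁻¹ * T) ?_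
  · rw [hsl, hvol]
    simp only [hint]
    calc ∏ k : Fin d, (2 * (R ^ (d + 2) * ∫ x in R⁻¹ • K, x k.succ))
        = (R ^ (d + 2)) ^ d * ∏ k : Fin d, (2 * ∫ x in R⁻¹ • K, x k.succ) := by
          rw [show (fun k : Fin d => 2 * (R ^ (d + 2) * ∫ x in R⁻¹ • K, x k.succ)) =
            fun k => R ^ (d + 2) * (2 * ∫ x in R⁻¹ • K, x k.succ) from funext fun k => by ring,
            Finset.prod_mul_distrib]
          simp
      _ ≤ (R ^ (d + 2)) ^ d * ((volume (R⁻¹ • K)).toReal ^ d *
            (volume (sl (R⁻¹ • K) (R⁻¹ * T))).toReal) := by gcongr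
      _ = (R ^ (d + 1) * (volume (R⁻¹ • K)).toReal) ^ d *
            (R ^ d * (volume (sl (R⁻¹ • K) (R⁻¹ * T))).toReal) := by ring
  · rw [hint, hvol] at hT
    have h1 : R ^ (d + 2) ≠ 0 := pow_ne_zero _ hR0
    apply mul_left_cancel₀ h1
    rw [← hT, pow_succ R (d + 1)]
    generalize (volume (R⁻¹ • K)).toReal = v
    field_simp

/-- Translation. -/
private lemma transCase {K : Set (Fin (d + 1) → ℝ)} (hK : IsCompact K) (a : ℝ)
    (h : PP ((fun x : Fin (d + 1) → ℝ => x + Pi.single 0 (-a)) ⁻¹' K)) : PP K := by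
  intro T hT
  set K1 : Set (Fin (d + 1) → ℝ) := (fun x : Fin (d + 1) → ℝ => x + Pi.single 0 (-a)) ⁻¹' K
    with hK1
  have hvol : volume K1 = volume K := measure_preimage_add_right _ _ _
  have hint : ∀ f : (Fin (d + 1) → ℝ) → ℝ, ∫ x in K1, f (x + Pi.single 0 (-a)) = ∫ x in K, f x :=
    fun f => (measurePreserving_add_right volume
      (Pi.single 0 (-a) : Fin (d + 1) → ℝ)).setIntegral_preimage_emb
      (measurableEmbedding_addRight _) f K
  have i2 : ∀ k : Fin d, ∫ x in K, x k.succ = ∫ x in K1, x k.succ := by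
    intro k
    rw [← hint (fun x => x k.succ)]
    simp
  have hK1c : IsCompact K1 := by
    have : K1 = (Homeomorph.addRight (Pi.single 0 (-a) : Fin (d + 1) → ℝ)) ⁻¹' K := rfl
    rw [this, Homeomorph.isCompact_preimage]
    exact hK
  have i0 : ∫ x in K, x 0 = (∫ x in K1, x 0) - a * (volume K).toReal := by
    rw [← hint (fun x => x 0)]
    simp only [Pi.add_apply, Pi.single_eq_same]
    rw [integral_add]
    · simp only [integral_const, smul_eq_mul, measureReal_def, Measure.restrict_apply_univ, hvol]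
      ring
    · exact (continuous_apply 0).continuousOn.integrableOn_compact hK1c
    · exact integrableOn_const (by rw [hvol]; exact hK.measure_ne_top)
  have hsl : sl K1 (T + a) = sl K T := by
    ext y
    change (Fin.cons (T + a) y : Fin (d + 1) → ℝ) + Pi.single 0 (-a) ∈ K ↔
      (Fin.cons T y : Fin (d + 1) → ℝ) ∈ K
    have : (Fin.cons (T + a) y : Fin (d + 1) → ℝ) + Pi.single 0 (-a) = Fin.cons T y := by
      funext k
      refine Fin.cases ?_ (fun k => ?_) k
      · simp
      · simp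
    rw [this]
  have := h (T + a) ?_
  · rw [hsl, hvol] at this
    simp only [i2]
    exact this
  · rw [hvol, add_mul, hT, i0]
    ring

/-- L8 -/
theorem funcr_of_func (n : ℕ) (h : FUNC n) : FUNCR (n + 1) := by
  intro K hK hc hne hpos hlow T hT
  obtain ⟨C, hC⟩ := hK.isBounded.exists_norm_le
  set R : ℝ := max C 1 with hRdef
  have hR : 0 < R := lt_max_of_lt_right one_pos
  have hR2 : 0 < 2 * R := by positivity
  have hKR : ∀ x ∈ K, ∀ k, |x k| ≤ R := fun x hx k =>
    (norm_le_pi_norm x k).trans ((hC x hx).trans (le_max_left _ _))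
  suffices PP K from this T hT
  refine transCase hK R (scaleCase hR2 ?_)
  set K1 : Set (Fin (n + 2) → ℝ) := (fun x : Fin (n + 2) → ℝ => x + Pi.single 0 (-R)) ⁻¹' K
    with hK1
  have hmem : ∀ y, y ∈ (2 * R)⁻¹ • K1 ↔ (2 * R) • y + Pi.single 0 (-R) ∈ K := fun y => by
    rw [mem_inv_smul_set_iff₀ hR2.ne']
    rfl
  have hK1c : IsCompact K1 := by
    have : K1 = (Homeomorph.addRight (Pi.single 0 (-R) : Fin (n + 2) → ℝ)) ⁻¹' K := rfl
    rw [this, Homeomorph.isCompact_preimage]
    exact hK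
  have hK1v : Convex ℝ K1 := hc.translate_preimage_left _
  have hK1n : K1.Nonempty := by
    obtain ⟨x, hx⟩ := hne
    refine ⟨x - Pi.single 0 (-R), ?_⟩
    simpa [hK1] using hx
  intro T' hT'
  refine unitCase h ((2 * R)⁻¹ • K1) (hK1c.smul _) (hK1v.smul _) hK1n.smul_set ?_ ?_ T' hT'
  · intro y hy
    rw [hmem] at hy
    have h0 := hKR _ hy 0
    have hs : ∀ k : Fin (n + 1), 0 ≤ 2 * R * y k.succ ∧ 2 * R * y k.succ ≤ R := fun k => by
      have h1 := hpos _ hy k
      have h2 := (le_abs_self _).trans (hKR _ hy k.succ)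
      simp only [Pi.add_apply, Pi.smul_apply, smul_eq_mul, ne_eq, Fin.succ_ne_zero,
        not_false_eq_true, Pi.single_eq_of_ne, add_zero] at h1 h2
      exact ⟨h1, h2⟩
    simp only [Pi.add_apply, Pi.smul_apply, smul_eq_mul, Pi.single_eq_same] at h0
    rw [abs_le] at h0
    constructor
    · intro k
      refine Fin.cases ?_ (fun k => ?_) k
      · exact nonneg_of_mul_nonneg_right (show 0 ≤ 2 * R * y 0 by linarith) hR2
      · exact nonneg_of_mul_nonneg_right (hs k).1 hR2
    · intro k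
      refine Fin.cases ?_ (fun k => ?_) k
      · exact le_of_mul_le_mul_left (show 2 * R * y 0 ≤ 2 * R * 1 by linarith) hR2
      · exact le_of_mul_le_mul_left
          (show 2 * R * y k.succ ≤ 2 * R * 1 by linarith [(hs k).2]) hR2
  · intro x hx y h0 hk
    rw [hmem] at hx ⊢
    refine hlow _ hx _ ?_ fun k => ?_
    · simp [h0]
    · simp only [Pi.add_apply, Pi.smul_apply, smul_eq_mul, ne_eq, Fin.succ_ne_zero,
        not_false_eq_true, Pi.single_eq_of_ne, add_zero]
      exact ⟨mul_nonneg hR2.le (hk k).1, mul_le_mul_of_nonneg_left (hk k).2 hR2.le⟩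

end Vale.Agent.P254.FV1
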