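import Vale.Agent.P254.FV1.Defs
import Vale.Agent.P254.Unc.E1a

/-! P254, one free direction, L5 (helper956): the sup-convolution for sets closed downwards in all
coordinates except the coordinate `1`. -/

open MeasureTheory Set Filter Topology
open scoped NNReal

namespace Vale.Agent.P254.FV1

open Unc

variable {n : ℕ}

theorem lowE_cons {L : Set (X (n + 2))} (hlow : LowE L) {x : X (n + 1)} {s t : unitInterval}
    (hst : s ≤ t) (h : (Fin.cons t x : X (n + 2)) ∈ L) : (Fin.cons s x : X (n + 2)) ∈ L := by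
  refine hlow _ h _ ?_ ?_
  · intro i
    refine Fin.cases ?_ (fun j => ?_) i
    · simpa using hst
    · simp
  · rfl

theorem scG_antiF {L : Set (X (n + 2))} (hL : IsClosed L) (hne : L.Nonempty)
    (hlow : LowE L) (N : ℕ) (x y : X (n + 1)) (hxy : x ≤ y) (h0 : x 0 = y 0) :
    scG L N y ≤ scG L N x := by
  obtain ⟨p, hp, hEp, -⟩ := scG_max hL hne N y
  obtain ⟨-, -, -, hz⟩ := scG_max hL hne N x
  set w : X (n + 1) := Fin.cons (p 1) (fun k : Fin n => p k.succ.succ ⊓ x k.succ) with hw
  have hw0 : w 0 = p 1 := rfl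
  have hws : ∀ k : Fin n, w k.succ = p k.succ.succ ⊓ x k.succ := fun k => rfl
  have hq : (Fin.cons (p 0) w : X (n + 2)) ∈ L := by
    refine hlow p hp _ ?_ ?_
    · intro i
      refine Fin.cases ?_ (fun j => ?_) i
      · simp
      · simp only [Fin.cons_succ]
        refine Fin.cases ?_ (fun k => ?_) j
        · rw [hw0]; exact le_refl _
        · rw [hws]; exact inf_le_left
    · rfl
  refine le_trans ?_ (hz _ hq)
  rw [hEp]
  unfold scF
  rw [Fin.cons_zero, Fin.tail_cons]
  have h1 : dist x w ≤ dist y (Fin.tail p) := by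
    rw [dist_pi_le_iff dist_nonneg]
    intro k
    refine le_trans ?_ (dist_le_pi_dist y (Fin.tail p) k)
    refine Fin.cases ?_ (fun j => ?_) k
    · rw [h0]
      exact le_refl _
    · rw [Subtype.dist_eq, Subtype.dist_eq, Real.dist_eq, Real.dist_eq, hws]
      have hk : ((x j.succ : unitInterval) : ℝ) ≤ y j.succ := hxy j.succ
      have ht : (Fin.tail p j.succ : unitInterval) = p j.succ.succ := rfl
      rw [ht]
      rcases le_total (p j.succ.succ : unitInterval) (x j.succ) with h | h
      · rw [inf_eq_left.2 h]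
        have h' : ((p j.succ.succ : unitInterval) : ℝ) ≤ x j.succ := h
        rw [abs_of_nonneg (by linarith), abs_of_nonneg (by linarith)]
        linarith
      · rw [inf_eq_right.2 h]
        simp
  have h2 := mul_le_mul_of_nonneg_left h1 (Nat.cast_nonneg (α := ℝ) N)
  linarith

/-- lower bound for `Hf` -/
theorem le_HfF {L : Set (X (n + 2))} (hlow : LowE L) {x : X (n + 1)} {t : unitInterval}
    (h : (Fin.cons t x : X (n + 2)) ∈ L) : (t : ℝ) ≤ Hf L x := by
  have h1 : Set.Iic t ⊆ {t : unitInterval | (Fin.cons t x : X (n + 2)) ∈ L} := fun s hs =>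
    lowE_cons hlow hs h
  have h2 := measure_mono (μ := (volume : Measure unitInterval)) h1
  rw [unitInterval.volume_Iic] at h2
  unfold Hf
  have h3 : (volume {t : unitInterval | (Fin.cons t x : X (n + 2)) ∈ L}) ≠ ⊤ :=
    measure_ne_top _ _
  exact (ENNReal.ofReal_le_iff_le_toReal h3).1 h2

theorem scG_tendstoF {L : Set (X (n + 2))} (hL : IsClosed L) (hne : L.Nonempty)
    (hlow : LowE L) (x : X (n + 1)) :
    Tendsto (fun N => max (scG L N x) 0) atTop (𝓝 (Hf L x)) := by
  rw [tendsto_order]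
  refine ⟨fun a ha => Eventually.of_forall fun N => lt_of_lt_of_le ha (Hf_le_scG hL hne N x),
    fun c hc => ?_⟩
  by_contra hcon
  rw [not_eventually] at hcon
  have hcpos : 0 < c := lt_of_le_of_lt (scHf_nonneg L x) hc
  have hall : ∀ N, c ≤ scG L N x := by
    intro N
    obtain ⟨N', hN', h⟩ := (frequently_atTop.1 hcon) N
    rw [not_lt] at h
    have h' : c ≤ scG L N' x := by
      rcases le_max_iff.1 h with h | h
      · exact h
      · linarith
    exact h'.trans (scG_anti_N hL hne hN' x)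
  let C : ℕ → Set (X (n + 2)) := fun N => L ∩ {p | c ≤ scF N x p}
  have hCcl : ∀ N, IsClosed (C N) := fun N =>
    hL.inter (isClosed_le continuous_const (continuous_scF N x))
  have hCne : ∀ N, (C N).Nonempty := by
    intro N
    obtain ⟨p, hp, hE, -⟩ := scG_max hL hne N x
    exact ⟨p, hp, by rw [mem_ofPred_eq, ← hE]; exact hall N⟩
  have hCanti : ∀ N, C (N + 1) ⊆ C N := by
    rintro N p ⟨hp, hp'⟩
    refine ⟨hp, ?_⟩
    rw [mem_ofPred_eq] at hp' ⊢
    refine hp'.trans ?_
    unfold scF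
    push_cast
    have := dist_nonneg (x := x) (y := Fin.tail p)
    nlinarith
  obtain ⟨p, hp⟩ := IsCompact.nonempty_iInter_of_sequence_nonempty_isCompact_isClosed C hCanti
    hCne (hCcl 0).isCompact hCcl
  rw [mem_iInter] at hp
  have hpL : p ∈ L := (hp 0).1
  have hp0 : c ≤ ((p 0 : unitInterval) : ℝ) := by
    have := (hp 0).2
    rw [mem_ofPred_eq] at this
    unfold scF at this
    simpa using this
  have hdist : dist x (Fin.tail p) = 0 := by
    by_contra hne0
    have hpos : 0 < dist x (Fin.tail p) := lt_of_le_of_ne dist_nonneg (Ne.symm hne0)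
    obtain ⟨N, hN⟩ := exists_nat_gt (1 / dist x (Fin.tail p))
    have h1 := (hp N).2
    rw [mem_ofPred_eq] at h1
    unfold scF at h1
    have h2 : ((p 0 : unitInterval) : ℝ) ≤ 1 := (p 0).2.2
    have h3 : 1 < N * dist x (Fin.tail p) := by
      rwa [div_lt_iff₀ hpos] at hN
    linarith
  have hx : x = Fin.tail p := dist_eq_zero.1 hdist
  have hmem : (Fin.cons (p 0) x : X (n + 2)) ∈ L := by
    rw [hx, Fin.cons_self_tail]
    exact hpL
  have := le_HfF hlow hmem
  linarith

theorem exists_supconvF (L : Set (X (n + 2))) (hL : IsClosed L) (hne : L.Nonempty) (hlow : LowE L)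
    (hmid : ∀ x ∈ L, ∀ y ∈ L, mid x y ∈ L) :
    ∃ g : ℕ → X (n + 1) → ℝ, (∀ N, ∃ K, LipschitzWith K (g N)) ∧ (∀ N, Rel (g N) (g N) (g N)) ∧
      (∀ N x y, x ≤ y → x 0 = y 0 → g N y ≤ g N x) ∧ (∀ N x, g N x ≤ 1) ∧
      (∀ N x, 0 < Hf L x → Hf L x ≤ g N x) ∧
      ∀ x, Tendsto (fun N => max (g N x) 0) atTop (𝓝 (Hf L x)) :=
  ⟨fun N => scG L N, fun N => ⟨_, scG_lip hL hne N⟩, fun N => scG_rel hL hne hmid N,
    fun N x y hxy h0 => scG_antiF hL hne hlow N x y hxy h0, fun N x => scG_le_one hL hne N x,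
    fun N x hx => by
      rcases le_max_iff.1 (Hf_le_scG hL hne N x) with h | h
      · exact h
      · exact absurd hx (not_lt.2 h),
    fun x => scG_tendstoF hL hne hlow x⟩

end Vale.Agent.P254.FV1
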