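import Vale.Agent.P254.FV1.Fcx
import Vale.Agent.P254.FV1.CubeH
import Vale.Agent.P254.FV1.SupConv
import Vale.Agent.P254.FV1.Fub
import Vale.Agent.P254.FV1.Real
import Vale.Agent.P254.Unc.Top

/-! P254/FV1: the volume inequality with one free variable, in all dimensions. -/

namespace Vale.Agent.P254.FV1

open Unc

theorem cx_all (n : ℕ) : CX n := cx_of_cxs n (cxs_of_unc n (unc_all n))

theorem fcx_all (n : ℕ) : FCX n := fcx_of_cx n (cx_all n)

theorem func_all (n : ℕ) : FUNC n :=
  func_of_fcx_of n (fun L => exists_supconvF L) (fun L => fub_zeroF L) (fun L => fub_sec L)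
    (fcx_all n)

theorem funcr_all (n : ℕ) : FUNCR (n + 1) := funcr_of_func n (func_all n)

end Vale.Agent.P254.FV1
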