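import Vale.Agent.P254.FV1.SupConv
import Vale.Agent.P254.FV1.Fub

/-! P254, one free direction, block L7: limit passage from the functional inequality `FCX` to the
volume inequality `FUNC` in the cube. -/

open MeasureTheory Set Filter Topology
open scoped NNReal

namespace Vale.Agent.P254.FV1

open Unc

variable {n : ℕ}

theorem cube_continuous_cons :
    Continuous (fun p : unitInterval × X n => (Fin.cons p.1 p.2 : X (n + 1))) := by
  refine continuous_pi fun k => ?_
  refine Fin.cases ?_ (fun j => ?_) k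
  · simpa using continuous_fst
  · simp only [Fin.cons_succ]
    exact (continuous_apply j).comp continuous_snd

theorem cube_exists_bd {m : ℕ} {G : X m → ℝ} (hG : Continuous G) :
    ∃ C : ℝ, 0 ≤ C ∧ ∀ x, |G x| ≤ C := by
  obtain ⟨C, hC⟩ := isCompact_univ.exists_bound_of_continuousOn hG.continuousOn
  exact ⟨max C 0, le_max_right _ _, fun x => (hC x (mem_univ x)).trans (le_max_left _ _)⟩

theorem cube_integrable {m : ℕ} {G : X m → ℝ} (hG : Continuous G) : Integrable G :=
  hG.integrable_of_hasCompactSupport (HasCompactSupport.of_compactSpace G)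

theorem cube_cont_coord {m : ℕ} (k : Fin m) :
    Continuous (fun x : X m => ((x k : unitInterval) : ℝ)) :=
  continuous_subtype_val.comp (continuous_apply k)

theorem cube_cont_slice {G : X (n + 1) → ℝ} (hG : Continuous G) (t : unitInterval) :
    Continuous (fun x : X n => max (G (Fin.cons t x)) 0) :=
  (hG.comp (cube_continuous_cons.comp (Continuous.prodMk_right t))).max continuous_const

/-- The slice integral is continuous in the position of the slice. -/
theorem cube_tendsto_slice {G : X (n + 1) → ℝ} (hG : Continuous G) {τ : ℕ → unitInterval}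
    {T : unitInterval} (hτ : Tendsto τ atTop (𝓝 T)) :
    Tendsto (fun N => ∫ x : X n, max (G (Fin.cons (τ N) x)) 0) atTop
      (𝓝 (∫ x : X n, max (G (Fin.cons T x)) 0)) := by
  obtain ⟨C, hC0, hC⟩ := cube_exists_bd hG
  refine tendsto_integral_of_dominated_convergence (fun _ => C)
    (fun N => (cube_cont_slice hG _).aestronglyMeasurable) (integrable_const _)
    (fun N => Eventually.of_forall fun x => ?_) (Eventually.of_forall fun x => ?_)
  · rw [Real.norm_eq_abs, abs_of_nonneg (le_max_right _ _)]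
    exact max_le ((le_abs_self _).trans (hC _)) hC0
  · have h1 : Tendsto (fun N => ((τ N, x) : unitInterval × X n)) atTop (𝓝 (T, x)) :=
      hτ.prodMk_nhds tendsto_const_nhds
    exact (((hG.comp cube_continuous_cons).max continuous_const).tendsto (T, x)).comp h1

/-- A nonnegative continuous density has its barycentre in the unit interval. -/
theorem cube_exists_bary {ρ : X (n + 1) → ℝ} (hρ : Continuous ρ) (h0 : ∀ x, 0 ≤ ρ x) :
    ∃ T : unitInterval, (T : ℝ) * ∫ x, ρ x = ∫ x, ((x 0 : unitInterval) : ℝ) * ρ x := by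
  have hi : Integrable ρ := cube_integrable hρ
  have hi2 : Integrable (fun x : X (n + 1) => ((x 0 : unitInterval) : ℝ) * ρ x) :=
    cube_integrable ((cube_cont_coord 0).mul hρ)
  have ha : 0 ≤ ∫ x, ((x 0 : unitInterval) : ℝ) * ρ x :=
    integral_nonneg fun x => mul_nonneg (x 0).2.1 (h0 x)
  have hab : ∫ x, ((x 0 : unitInterval) : ℝ) * ρ x ≤ ∫ x, ρ x :=
    integral_mono hi2 hi fun x => mul_le_of_le_one_left (h0 x) (x 0).2.2
  rcases (ha.trans hab).eq_or_lt with hb | hb
  · refine ⟨0, ?_⟩
    have h1 : ∫ x, ((x 0 : unitInterval) : ℝ) * ρ x = 0 := le_antisymm (hab.trans hb.ge) ha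
    rw [h1]
    simp
  · refine ⟨⟨(∫ x, ((x 0 : unitInterval) : ℝ) * ρ x) / ∫ x, ρ x, div_nonneg ha hb.le,
      (div_le_one hb).2 hab⟩, ?_⟩
    exact div_mul_cancel₀ _ hb.ne'

/-- First limit: the densities `max (g N) 0` tend to `H`, the function `G` is fixed. -/
theorem cube_lim_rho (h : FCX n) {H : X (n + 1) → ℝ} {g : ℕ → X (n + 1) → ℝ}
    (hlip : ∀ N, ∃ K, LipschitzWith K (g N))
    (hanti : ∀ N x y, x ≤ y → x 0 = y 0 → g N y ≤ g N x) (hle : ∀ N x, g N x ≤ 1)
    (hlim : ∀ x, Tendsto (fun N => max (g N x) 0) atTop (𝓝 (H x)))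
    {G : X (n + 1) → ℝ} {M : ℝ≥0} (hG : LipschitzWith M G) (hR : Rel G G G)
    (hpos : 0 < ∫ x, H x) (T : unitInterval)
    (hT : (T : ℝ) * ∫ x, H x = ∫ x, ((x 0 : unitInterval) : ℝ) * H x) :
    (∫ x, G x * H x) * ∏ k : Fin n, (2 * ∫ x : X (n + 1), ((x k.succ : unitInterval) : ℝ) * H x) ≤
      (∫ x, H x) ^ (n + 1) * ∫ x : X n, max (G (Fin.cons T x)) 0 := by
  have hc : ∀ N, Continuous (fun x => max (g N x) 0) := fun N => by
    obtain ⟨K, hK⟩ := hlip N
    exact hK.continuous.max continuous_const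
  have hb : ∀ N x, |max (g N x) 0| ≤ 1 := by
    intro N x
    rw [abs_of_nonneg (le_max_right _ _)]
    exact max_le (hle N x) zero_le_one
  obtain ⟨C, hC0, hC⟩ := cube_exists_bd hG.continuous
  choose τ hτ using fun N => cube_exists_bary (hc N) (fun x => le_max_right (g N x) 0)
  have h1 : ∀ N, (∫ x, G x * max (g N x) 0) *
      ∏ k : Fin n, (2 * ∫ x : X (n + 1), ((x k.succ : unitInterval) : ℝ) * max (g N x) 0) ≤
      (∫ x, max (g N x) 0) ^ (n + 1) * ∫ x : X n, max (G (Fin.cons (τ N) x)) 0 := by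
    intro N
    obtain ⟨K, hK⟩ := hlip N
    exact h G (fun x => max (g N x) 0) K M hG hR (hK.max_const 0) (fun x => le_max_right _ _)
      (fun x y hxy h0 => max_le_max (hanti N x y hxy h0) le_rfl) (τ N) (hτ N)
  have l1 : Tendsto (fun N => ∫ x : X (n + 1), max (g N x) 0) atTop (𝓝 (∫ x, H x)) := by
    refine tendsto_integral_of_dominated_convergence (fun _ => (1 : ℝ))
      (fun N => (hc N).aestronglyMeasurable)
      (integrable_const _) (fun N => Eventually.of_forall fun x => ?_) (Eventually.of_forall hlim)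
    rw [Real.norm_eq_abs]
    exact hb N x
  have l2 : Tendsto (fun N => ∫ x : X (n + 1), G x * max (g N x) 0) atTop
      (𝓝 (∫ x, G x * H x)) := by
    refine tendsto_integral_of_dominated_convergence (fun _ => C)
      (fun N => (hG.continuous.mul (hc N)).aestronglyMeasurable)
      (integrable_const _) (fun N => Eventually.of_forall fun x => ?_)
      (Eventually.of_forall fun x => (hlim x).const_mul _)
    rw [Real.norm_eq_abs, abs_mul]
    calc |G x| * |max (g N x) 0| ≤ C * 1 :=
          mul_le_mul (hC x) (hb N x) (abs_nonneg _) hC0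
      _ = C := mul_one C
  have l3 : ∀ k : Fin (n + 1), Tendsto
      (fun N => ∫ x : X (n + 1), ((x k : unitInterval) : ℝ) * max (g N x) 0) atTop
      (𝓝 (∫ x : X (n + 1), ((x k : unitInterval) : ℝ) * H x)) := by
    intro k
    refine tendsto_integral_of_dominated_convergence (fun _ => (1 : ℝ))
      (fun N => ((cube_cont_coord k).mul (hc N)).aestronglyMeasurable)
      (integrable_const _) (fun N => Eventually.of_forall fun x => ?_)
      (Eventually.of_forall fun x => (hlim x).const_mul _)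
    rw [Real.norm_eq_abs, abs_mul]
    refine mul_le_one₀ ?_ (abs_nonneg _) (hb N x)
    rw [abs_of_nonneg (x k).2.1]
    exact (x k).2.2
  have lτ : Tendsto τ atTop (𝓝 T) := by
    rw [tendsto_subtype_rng]
    have e0 : (T : ℝ) = (∫ x, ((x 0 : unitInterval) : ℝ) * H x) / ∫ x, H x := by
      rw [← hT]
      exact (mul_div_cancel_right₀ _ hpos.ne').symm
    rw [e0]
    refine ((l3 0).div l1 hpos.ne').congr' ?_
    filter_upwards [l1.eventually (lt_mem_nhds hpos)] with N hN
    rw [Pi.div_apply, ← hτ N]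
    exact mul_div_cancel_right₀ _ (ne_of_gt hN)
  have l4 : Tendsto (fun N => (∫ x : X (n + 1), G x * max (g N x) 0) *
      ∏ k : Fin n, (2 * ∫ x : X (n + 1), ((x k.succ : unitInterval) : ℝ) * max (g N x) 0)) atTop
      (𝓝 ((∫ x, G x * H x) *
        ∏ k : Fin n, (2 * ∫ x : X (n + 1), ((x k.succ : unitInterval) : ℝ) * H x))) :=
    l2.mul (tendsto_finsetProd _ fun k _ => (l3 k.succ).const_mul 2)
  exact le_of_tendsto_of_tendsto' l4
    ((l1.pow (n + 1)).mul (cube_tendsto_slice hG.continuous lτ)) h1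

/-- Second limit: `G = g N`, and `N` tends to infinity. -/
theorem cube_lim_G (h : FCX n) {H : X (n + 1) → ℝ} {g : ℕ → X (n + 1) → ℝ}
    (hHm : Measurable H) (hH0 : ∀ x, 0 ≤ H x) (hH1 : ∀ x, H x ≤ 1)
    (hlip : ∀ N, ∃ K, LipschitzWith K (g N)) (hrel : ∀ N, Rel (g N) (g N) (g N))
    (hanti : ∀ N x y, x ≤ y → x 0 = y 0 → g N y ≤ g N x) (hle : ∀ N x, g N x ≤ 1)
    (hge : ∀ N x, 0 < H x → H x ≤ g N x)
    (hlim : ∀ x, Tendsto (fun N => max (g N x) 0) atTop (𝓝 (H x)))
    (T : unitInterval)
    (hT : (T : ℝ) * ∫ x, H x = ∫ x, ((x 0 : unitInterval) : ℝ) * H x) :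
    (∫ x, H x ^ 2) * ∏ k : Fin n, (2 * ∫ x : X (n + 1), ((x k.succ : unitInterval) : ℝ) * H x) ≤
      (∫ x, H x) ^ (n + 1) * ∫ x : X n, H (Fin.cons T x) := by
  have hHi : Integrable H := by
    refine Integrable.of_bound (C := 1) hHm.aestronglyMeasurable (Eventually.of_forall fun x => ?_)
    rw [Real.norm_eq_abs, abs_of_nonneg (hH0 x)]
    exact hH1 x
  have hH2i : Integrable (fun x => H x ^ 2) := by
    refine Integrable.of_bound (C := 1) (hHm.pow_const 2).aestronglyMeasurable
      (Eventually.of_forall fun x => ?_)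
    rw [Real.norm_eq_abs, abs_of_nonneg (sq_nonneg _)]
    exact pow_le_one₀ (hH0 x) (hH1 x)
  have hprod : 0 ≤ ∏ k : Fin n, (2 * ∫ x : X (n + 1), ((x k.succ : unitInterval) : ℝ) * H x) :=
    Finset.prod_nonneg fun k _ => mul_nonneg zero_le_two
      (integral_nonneg fun x => mul_nonneg (x k.succ).2.1 (hH0 x))
  have hI0 : 0 ≤ ∫ x, H x := integral_nonneg hH0
  rcases hI0.eq_or_lt with hz | hpos
  · have h2 : ∫ x, H x ^ 2 ≤ ∫ x, H x := integral_mono hH2i hHi fun x => by
      have := mul_le_of_le_one_left (hH0 x) (hH1 x)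
      simpa [sq] using this
    have h3 : ∫ x, H x ^ 2 ≤ 0 := h2.trans hz.ge
    calc (∫ x, H x ^ 2) *
          ∏ k : Fin n, (2 * ∫ x : X (n + 1), ((x k.succ : unitInterval) : ℝ) * H x) ≤ 0 :=
          mul_nonpos_of_nonpos_of_nonneg h3 hprod
      _ ≤ (∫ x, H x) ^ (n + 1) * ∫ x : X n, H (Fin.cons T x) :=
          mul_nonneg (pow_nonneg hI0 _) (integral_nonneg fun x => hH0 _)
  · have h1 : ∀ N, (∫ x, H x ^ 2) *
        ∏ k : Fin n, (2 * ∫ x : X (n + 1), ((x k.succ : unitInterval) : ℝ) * H x) ≤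
        (∫ x, H x) ^ (n + 1) * ∫ x : X n, max (g N (Fin.cons T x)) 0 := by
      intro N
      obtain ⟨K, hK⟩ := hlip N
      refine le_trans ?_ (cube_lim_rho h hlip hanti hle hlim hK (hrel N) hpos T hT)
      refine mul_le_mul_of_nonneg_right ?_ hprod
      have hgi : Integrable (fun x => g N x * H x) := by
        obtain ⟨C, hC0, hC⟩ := cube_exists_bd hK.continuous
        refine Integrable.of_bound (C := C)
          (hK.continuous.measurable.mul hHm).aestronglyMeasurable
          (Eventually.of_forall fun x => ?_)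
        rw [Real.norm_eq_abs, abs_mul]
        calc |g N x| * |H x| ≤ C * 1 :=
              mul_le_mul (hC x) (by rw [abs_of_nonneg (hH0 x)]; exact hH1 x) (abs_nonneg _) hC0
          _ = C := mul_one C
      refine integral_mono hH2i hgi fun x => ?_
      rcases (hH0 x).eq_or_lt with h0 | h0
      · simp [← h0]
      · have := mul_le_mul_of_nonneg_right (hge N x h0) (hH0 x)
        simpa [sq] using this
    have l5 : Tendsto (fun N => ∫ x : X n, max (g N (Fin.cons T x)) 0) atTop
        (𝓝 (∫ x : X n, H (Fin.cons T x))) := by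
      refine tendsto_integral_of_dominated_convergence (fun _ => (1 : ℝ)) (fun N => ?_)
        (integrable_const _) (fun N => Eventually.of_forall fun x => ?_)
        (Eventually.of_forall fun x => hlim _)
      · obtain ⟨K, hK⟩ := hlip N
        exact (cube_cont_slice hK.continuous T).aestronglyMeasurable
      · rw [Real.norm_eq_abs, abs_of_nonneg (le_max_right _ _)]
        exact max_le (hle N _) zero_le_one
    exact le_of_tendsto_of_tendsto' tendsto_const_nhds (l5.const_mul _) h1

/-- L7 with the results of L5 and L6 as hypotheses. -/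
theorem func_of (h : FCX n)
    (hsup : ∀ L : Set (X (n + 2)), IsClosed L → L.Nonempty → LowE L →
      (∀ x ∈ L, ∀ y ∈ L, mid x y ∈ L) →
      ∃ g : ℕ → X (n + 1) → ℝ, (∀ N, ∃ K, LipschitzWith K (g N)) ∧ (∀ N, Rel (g N) (g N) (g N)) ∧
        (∀ N x y, x ≤ y → x 0 = y 0 → g N y ≤ g N x) ∧ (∀ N x, g N x ≤ 1) ∧
        (∀ N x, 0 < Hf L x → Hf L x ≤ g N x) ∧
        ∀ x, Tendsto (fun N => max (g N x) 0) atTop (𝓝 (Hf L x)))
    (hzero : ∀ L : Set (X (n + 2)), IsClosed L → LowE L →
      2 * ∫ p in L, ((p 0 : unitInterval) : ℝ) = ∫ x : X (n + 1), Hf L x ^ 2)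
    (hsec : ∀ L : Set (X (n + 2)), IsClosed L → ∀ T : unitInterval,
      (volume {q : X (n + 1) |
          (Fin.cons (q 0) (Fin.cons T (Fin.tail q)) : X (n + 2)) ∈ L}).toReal =
        ∫ x : X n, Hf L (Fin.cons T x)) :
    FUNC n := by
  intro L hL hne hlow hmid T hT
  obtain ⟨g, hlip, hrel, hanti, hle, hge, hlim⟩ := hsup L hL hne hlow hmid
  have e1 : ∫ x in L, ((x 1 : unitInterval) : ℝ) =
      ∫ x : X (n + 1), ((x 0 : unitInterval) : ℝ) * Hf L x := fub_succ L hL 0
  rw [e1, fub_vol L hL] at hT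
  rw [hzero L hL hlow, hsec L hL T, fub_vol L hL]
  simp only [fub_succ L hL]
  exact cube_lim_G h (Hf_measurable hL.measurableSet) (Hf_nonneg L) (Hf_le_one L) hlip hrel hanti
    hle hge hlim T hT

/-- L7: the functional inequality implies the volume inequality in the cube. -/
theorem func_of_fcx (n : ℕ) (h : FCX n) : FUNC n :=
  func_of h (fun L hL hne hlow hmid => exists_supconvF L hL hne hlow hmid)
    (fun L hL hlow => fub_zeroF L hL hlow) (fun L hL T => fub_sec L hL T)

end Vale.Agent.P254.FV1
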