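import Vale.Agent.P254.FV1.CubeH
import Vale.Agent.P254.FV1.SupConv
import Vale.Agent.P254.FV1.Fub

/-! P254/FV1, leaf L7 (helper422): `FCX n → FUNC n`. -/

namespace Vale.Agent.P254.FV1

theorem func_of_fcx422 (n : ℕ) (h : FCX n) : FUNC n :=
  func_of_fcx_of n (fun L => exists_supconvF L) (fun L => fub_zeroF L) (fun L => fub_sec L) h

end Vale.Agent.P254.FV1
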