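import Vale.Agent.P254.Unc.Defs

/-! P254/FV1, leaf L2: Jensen's inequality on `unitInterval` for a continuous midpoint concave function
(helper422). -/

open MeasureTheory Set
open scoped NNReal ENNReal

namespace Vale.Agent.P254.FV1

open Unc

namespace Jen

/-- continuous + midpoint concave on `[0,1]` gives concave -/
theorem concaveOn_of_mid {g : ℝ → ℝ} (hg : ContinuousOn g (Icc 0 1))
    (hm : ∀ s ∈ Icc (0:ℝ) 1, ∀ t ∈ Icc (0:ℝ) 1, (g s + g t) / 2 ≤ g ((s + t) / 2)) :
    ConcaveOn ℝ (Icc 0 1) g := by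
  refine ⟨convex_Icc 0 1, ?_⟩
  intro x hx y hy a b ha hb hab
  -- chord along the segment
  set γ : ℝ → ℝ := fun u => x + u * (y - x) with hγ
  have hγc : Continuous γ := by fun_prop
  have hγm : ∀ u ∈ Icc (0:ℝ) 1, γ u ∈ Icc (0:ℝ) 1 := by
    intro u hu
    have h := (convex_Icc (0:ℝ) 1) hx hy (sub_nonneg.2 hu.2) hu.1 (by ring)
    have e : (1 - u) • x + u • y = γ u := by simp only [hγ, smul_eq_mul]; ring
    rwa [e] at h
  set h : ℝ → ℝ := fun u => g (γ u) - ((1 - u) * g x + u * g y) with hh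
  have hhc : ContinuousOn h (Icc 0 1) := by
    apply ContinuousOn.sub
    · exact hg.comp hγc.continuousOn hγm
    · fun_prop
  have hmid : ∀ s ∈ Icc (0:ℝ) 1, ∀ t ∈ Icc (0:ℝ) 1, (h s + h t) / 2 ≤ h ((s + t) / 2) := by
    intro s hs t ht
    have h1 := hm _ (hγm s hs) _ (hγm t ht)
    have e : (γ s + γ t) / 2 = γ ((s + t) / 2) := by simp only [hγ]; ring
    rw [e] at h1
    simp only [hh]
    linarith
  have h0 : h 0 = 0 := by simp [hh, hγ]
  have h1 : h 1 = 0 := by simp [hh, hγ]
  have key : ∀ u ∈ Icc (0:ℝ) 1, 0 ≤ h u := by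
    obtain ⟨m, hmI, hmin⟩ := isCompact_Icc.exists_isMinOn (nonempty_Icc.2 zero_le_one) hhc
    by_contra hcon
    push Not at hcon
    obtain ⟨u, hu, hu0⟩ := hcon
    have hmneg : h m < 0 := lt_of_le_of_lt (hmin hu) hu0
    -- the set of minimisers
    set S : Set ℝ := {u ∈ Icc (0:ℝ) 1 | h u = h m} with hS
    have hScl : IsClosed S := by
      have : S = Icc (0:ℝ) 1 ∩ h ⁻¹' {h m} := rfl
      rw [this]
      exact hhc.preimage_isClosed_of_isClosed isClosed_Icc isClosed_singleton
    have hSne : S.Nonempty := ⟨m, hmI, rfl⟩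
    have hSc : IsCompact S := isCompact_Icc.of_isClosed_subset hScl (fun u hu => hu.1)
    obtain ⟨M, hMS, hMmax⟩ := hSc.exists_isGreatest hSne
    have hM0 : 0 < M := by
      rcases lt_or_eq_of_le hMS.1.1 with h' | h'
      · exact h'
      · exfalso; have := hMS.2; rw [← h', h0] at this; linarith
    have hM1 : M < 1 := by
      rcases lt_or_eq_of_le hMS.1.2 with h' | h'
      · exact h'
      · exfalso; have := hMS.2; rw [h', h1] at this; linarith
    set d : ℝ := min M (1 - M) with hd
    have hd0 : 0 < d := lt_min hM0 (by linarith)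
    have hdM : d ≤ M := min_le_left _ _
    have hd1 : d ≤ 1 - M := min_le_right _ _
    have hA : M - d ∈ Icc (0:ℝ) 1 := ⟨by linarith, by linarith⟩
    have hB : M + d ∈ Icc (0:ℝ) 1 := ⟨by linarith, by linarith⟩
    have hc := hmid _ hA _ hB
    have e : (M - d + (M + d)) / 2 = M := by ring
    rw [e, hMS.2] at hc
    have hmA : h m ≤ h (M - d) := hmin hA
    have hmB : h m ≤ h (M + d) := hmin hB
    have hBe : h (M + d) = h m := by linarith
    have : M + d ≤ M := hMmax ⟨hB, hBe⟩
    linarith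
  have hk := key b ⟨hb, by linarith⟩
  have ea : a = 1 - b := by linarith
  have eγ : a • x + b • y = γ b := by simp only [hγ, smul_eq_mul, ea]; ring
  rw [eγ]
  simp only [hh] at hk
  simp only [smul_eq_mul, ea]
  linarith

end Jen

theorem jensen (φ p : unitInterval → ℝ) (hφ : Continuous φ)
    (hm : ∀ s t, (φ s + φ t) / 2 ≤ φ (mid1 s t)) (hp : Continuous p) (hp0 : ∀ t, 0 ≤ p t)
    (T : unitInterval) (hT : (T : ℝ) * ∫ t, p t = ∫ t : unitInterval, (t : ℝ) * p t) :
    ∫ t, φ t * p t ≤ φ T * ∫ t, p t := by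
  have hcInt : ∀ f : unitInterval → ℝ, Continuous f → Integrable f := fun f hf =>
    hf.integrable_of_hasCompactSupport (HasCompactSupport.of_compactSpace f)
  have hpi : Integrable p := hcInt p hp
  have hI0 : 0 ≤ ∫ t, p t := integral_nonneg hp0
  rcases hI0.eq_or_lt with hz | hpos
  · -- `p = 0` a.e.
    have h0 : p =ᵐ[volume] 0 := (integral_eq_zero_iff_of_nonneg hp0 hpi).1 hz.symm
    have h1 : ∫ t, φ t * p t = 0 := by
      have : (fun t => φ t * p t) =ᵐ[volume] fun _ => (0:ℝ) := by
        filter_upwards [h0] with t ht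
        simp [ht]
      rw [integral_congr_ae this]
      simp
    rw [h1, ← hz]
    simp
  · set g : ℝ → ℝ := Set.IccExtend (zero_le_one' ℝ) φ with hg
    have hgv : ∀ t : unitInterval, g t = φ t := fun t => IccExtend_val _ _ _
    have hgc : Continuous g := hφ.Icc_extend'
    have hconc : ConcaveOn ℝ (Icc 0 1) g := by
      refine Jen.concaveOn_of_mid hgc.continuousOn ?_
      intro s hs t ht
      have h1 := hm ⟨s, hs⟩ ⟨t, ht⟩
      have h2 : g s = φ ⟨s, hs⟩ := hgv ⟨s, hs⟩
      have h3 : g t = φ ⟨t, ht⟩ := hgv ⟨t, ht⟩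
      have h4 : g ((s + t) / 2) = φ (mid1 ⟨s, hs⟩ ⟨t, ht⟩) := hgv (mid1 ⟨s, hs⟩ ⟨t, ht⟩)
      rw [h2, h3, h4]
      exact h1
    set w : unitInterval → ℝ≥0 := fun t => Real.toNNReal (p t) with hw
    have hwm : Measurable w := (continuous_real_toNNReal.comp hp).measurable
    set μ : Measure unitInterval := volume.withDensity (fun t => (w t : ℝ≥0∞)) with hμ
    have hint : ∀ f : unitInterval → ℝ, ∫ t, f t ∂μ = ∫ t, f t * p t := by
      intro f
      rw [hμ, integral_withDensity_eq_integral_smul hwm]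
      refine integral_congr_ae (Filter.Eventually.of_forall fun t => ?_)
      simp only [hw, NNReal.smul_def, smul_eq_mul, Real.coe_toNNReal _ (hp0 t)]
      ring
    have hfin : IsFiniteMeasure μ := by
      refine isFiniteMeasure_withDensity ?_
      have h1 : ∫⁻ t, (w t : ℝ≥0∞) = ∫⁻ t, ENNReal.ofReal (p t) := rfl
      rw [h1]
      exact (hpi.lintegral_lt_top).ne
    have huniv : μ.real univ = ∫ t, p t := by
      have h1 := hint (fun _ => (1:ℝ))
      simp only [integral_const, smul_eq_mul, mul_one, one_mul] at h1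
      exact h1
    have hne : NeZero μ := by
      refine ⟨fun h => ?_⟩
      rw [h] at huniv
      simp at huniv
      linarith
    have hcIntμ : ∀ f : unitInterval → ℝ, Continuous f → Integrable f μ := fun f hf =>
      hf.integrable_of_hasCompactSupport (HasCompactSupport.of_compactSpace f)
    have hJ := hconc.le_map_average (μ := μ) (f := fun t : unitInterval => (t : ℝ))
      hgc.continuousOn isClosed_Icc (Filter.Eventually.of_forall fun t => t.2)
      (hcIntμ _ continuous_subtype_val) (hcIntμ _ (hgc.comp continuous_subtype_val))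
    rw [average_eq, average_eq, huniv, hint, hint] at hJ
    simp only [smul_eq_mul, hgv] at hJ
    rw [← hT] at hJ
    have e : (∫ t, p t)⁻¹ * ((T : ℝ) * ∫ t, p t) = (T : ℝ) := by
      field_simp
    rw [e, hgv] at hJ
    rw [inv_mul_le_iff₀ hpos] at hJ
    linarith [mul_comm (φ T) (∫ t, p t)]

end Vale.Agent.P254.FV1
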