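import Vale.Agent.P254.FV1.Defs
import Vale.Agent.P254.Unc.D2

/-! P254-FV1, L3: separation (Hahn-Banach) for the moment vectors. -/

open MeasureTheory Set Filter Topology
open scoped NNReal

namespace Vale.Agent.P254.FV1

open Unc

variable {n : ℕ}

theorem sep_dens_one : Dens n (fun _ => (1 : ℝ)) where
  anti := fun _ _ _ => le_refl _
  nonneg := fun _ => zero_le_one
  lip := ⟨0, LipschitzWith.const _⟩
  int := by simp

theorem sep_Sf_le {f : X n → ℝ} {c : ℝ} (h : ∀ ρ, Dens n ρ → ∫ x, f x * ρ x ≤ c) : Sf f ≤ c := by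
  refine csSup_le ⟨_, _, sep_dens_one, rfl⟩ ?_
  rintro r ⟨ρ, hρ, rfl⟩
  exact h ρ hρ

theorem sep_mem (hCX : CX n) {G : X n → ℝ} {M : ℝ≥0} (hG : LipschitzWith M G) (hR : Rel G G G) :
    ∀ w ∈ closure (D2V0 G), ∏ i, w i ≤ (∫ x, max (G x) 0) / 2 ^ n := by
  have hc : IsClosed {w : Option (Fin n) → ℝ | ∏ i, w i ≤ (∫ x, max (G x) 0) / 2 ^ n} :=
    isClosed_le (continuous_finsetProd _ (fun i _ => continuous_apply i)) continuous_const
  refine closure_minimal ?_ hc
  rintro w ⟨ρ, hρ, rfl⟩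
  obtain ⟨K, hK⟩ := hρ.lip
  have h := hCX ρ G K M hρ.anti hρ.nonneg hK hG hR
  rw [hρ.int, one_pow, one_mul, Finset.prod_mul_distrib, Finset.prod_const, Finset.card_univ,
    Fintype.card_fin] at h
  show ∏ i, D2vv G ρ i ≤ _
  rw [le_div_iff₀ (by positivity), Fintype.prod_option]
  have e1 : D2vv G ρ none = ∫ x, G x * ρ x := rfl
  have e2 : ∀ k : Fin n, D2vv G ρ (some k) = ∫ x, ((x k : unitInterval) : ℝ) * ρ x := fun _ => rfl
  rw [e1, Finset.prod_congr rfl (fun k _ => e2 k)]
  calc _ = (∫ x, G x * ρ x) * (2 ^ n * ∏ k : Fin n, ∫ x, ((x k : unitInterval) : ℝ) * ρ x) := by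
        ring
    _ ≤ _ := h

theorem sep (hCX : CX n) {G : X n → ℝ} {M : ℝ≥0} (hG : LipschitzWith M G) (hR : Rel G G G)
    (v : Option (Fin n) → ℝ) (hv : ∀ i, 0 ≤ v i)
    (h : ∀ u : Option (Fin n) → ℝ, (∀ i, 0 ≤ u i) → ∑ i, u i * v i ≤ Sf (D2PS G u)) :
    ∏ i, v i ≤ (∫ x, max (G x) 0) / 2 ^ n := by
  classical
  by_cases hd : Disjoint (closure (D2V0 G)) (Ici v)
  · exfalso
    obtain ⟨f, a, b, h1, h2, h3⟩ := geometric_hahn_banach_compact_closed
      (d2_V0_convex hG).closure (d2_V_compact hG) (convex_Ici v) isClosed_Ici hd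
    set u : Option (Fin n) → ℝ := fun i => f (Pi.single i 1) with hu
    have hf : ∀ z : Option (Fin n) → ℝ, f z = ∑ i, u i * z i := by
      intro z
      conv_lhs => rw [← Finset.univ_sum_single z]
      rw [map_sum]
      refine Finset.sum_congr rfl (fun i _ => ?_)
      have : (Pi.single i (z i) : Option (Fin n) → ℝ) = z i • Pi.single i 1 := by
        rw [← Pi.single_smul]
        simp
      rw [this, map_smul, smul_eq_mul, mul_comm]
    have hu0 : ∀ i, 0 ≤ u i := by
      intro i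
      by_contra hneg
      rw [not_le] at hneg
      have hb := h3 v self_mem_Ici
      have hz : v + ((f v - b) / (-u i)) • (Pi.single i 1 : Option (Fin n) → ℝ) ∈ Ici v := by
        rw [mem_Ici]
        refine le_add_of_nonneg_right ?_
        intro j
        have h5 : 0 ≤ (f v - b) / (-u i) := div_nonneg (by linarith) (by linarith)
        have h6 : (0 : ℝ) ≤ (Pi.single i 1 : Option (Fin n) → ℝ) j := by
          by_cases hj : j = i
          · subst hj
            simp
          · rw [Pi.single_eq_of_ne hj]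
        exact mul_nonneg h5 h6
      have h4 := h3 _ hz
      rw [map_add, map_smul, smul_eq_mul] at h4
      have h7 : f (Pi.single i 1) = u i := rfl
      rw [h7] at h4
      have h8 : (f v - b) / (-u i) * u i = -(f v - b) := by
        have h9 : u i ≠ 0 := hneg.ne
        rw [div_neg, neg_mul, div_mul_cancel₀ _ h9]
      rw [h8] at h4
      linarith
    have h5 := h u hu0
    rw [← hf v] at h5
    have h6 : Sf (D2PS G u) ≤ a := by
      refine sep_Sf_le (fun ρ hρ => ?_)
      rw [← d2_sum_vv hG hρ u, ← hf]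
      exact (h1 _ (subset_closure ⟨ρ, hρ, rfl⟩)).le
    have h7 := h3 v self_mem_Ici
    linarith
  · rw [not_disjoint_iff] at hd
    obtain ⟨w, hw, hvw⟩ := hd
    refine le_trans ?_ (sep_mem hCX hG hR w hw)
    exact Finset.prod_le_prod (fun i _ => hv i) (fun i _ => hvw i)

end Vale.Agent.P254.FV1
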