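import Vale.Agent.P254.FV1.Defs
import Vale.Agent.P254.Unc.P5b
import Vale.Agent.P254.Unc.D1a

/-! P254/FV1, L1: the support functional of the antitone Lipschitz probability densities. -/

open MeasureTheory Set
open scoped NNReal

namespace Vale.Agent.P254.FV1

open Unc

variable {n : ℕ}

theorem Sup_dens_one : Dens n (fun _ => (1 : ℝ)) := by
  refine ⟨fun _ _ _ => le_rfl, fun _ => zero_le_one, ⟨0, LipschitzWith.const _⟩, ?_⟩
  simp

theorem Sup_cont {ρ : X n → ℝ} (h : Dens n ρ) : Continuous ρ := by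
  obtain ⟨K, hK⟩ := h.lip
  exact hK.continuous

theorem Sup_bound {f : X n → ℝ} (hf : Continuous f) :
    ∃ B : ℝ, ∀ ρ, Dens n ρ → ∫ x, f x * ρ x ≤ B := by
  obtain ⟨C, hC⟩ := (isCompact_univ (X := X n)).exists_bound_of_continuousOn hf.continuousOn
  refine ⟨C, fun ρ hρ => ?_⟩
  have hc := Sup_cont hρ
  calc ∫ x, f x * ρ x ≤ ∫ x, C * ρ x := by
        refine integral_mono (Unc.integrable_of_cont (hf.mul hc))
          (Unc.integrable_of_cont (continuous_const.mul hc)) fun x => ?_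
        have h := hC x (mem_univ x)
        rw [Real.norm_eq_abs] at h
        exact mul_le_mul_of_nonneg_right ((le_abs_self _).trans h) (hρ.nonneg x)
    _ = C := by rw [integral_const_mul, hρ.int, mul_one]

theorem Sup_bdd {f : X n → ℝ} (hf : Continuous f) :
    BddAbove {r : ℝ | ∃ ρ, Dens n ρ ∧ r = ∫ x, f x * ρ x} := by
  obtain ⟨B, hB⟩ := Sup_bound hf
  refine ⟨B, ?_⟩
  rintro _ ⟨ρ, hρ, rfl⟩
  exact hB ρ hρ

theorem le_Sf {f ρ : X n → ℝ} (hf : Continuous f) (hρ : Dens n ρ) : ∫ x, f x * ρ x ≤ Sf f :=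
  le_csSup (Sup_bdd hf) ⟨ρ, hρ, rfl⟩

theorem Sf_le {f : X n → ℝ} {c : ℝ} (h : ∀ ρ, Dens n ρ → ∫ x, f x * ρ x ≤ c) : Sf f ≤ c := by
  refine csSup_le ⟨_, ⟨fun _ => 1, Sup_dens_one, rfl⟩⟩ ?_
  rintro _ ⟨ρ, hρ, rfl⟩
  exact h ρ hρ

theorem exists_Sf {f : X n → ℝ} (hf : Continuous f) {ε : ℝ} (hε : 0 < ε) :
    ∃ ρ, Dens n ρ ∧ Sf f - ε ≤ ∫ x, f x * ρ x := by
  have hne : {r : ℝ | ∃ ρ, Dens n ρ ∧ r = ∫ x, f x * ρ x}.Nonempty :=
    ⟨_, ⟨fun _ => 1, Sup_dens_one, rfl⟩⟩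
  obtain ⟨r, ⟨ρ, hρ, rfl⟩, h⟩ := exists_lt_of_lt_csSup hne (show Sf f - ε < sSup _ by
    show Sf f - ε < Sf f
    linarith)
  exact ⟨ρ, hρ, h.le⟩

theorem Sf_le_add {f g : X n → ℝ} (hf : Continuous f) (hg : Continuous g) {ε : ℝ}
    (h : ∀ x, f x ≤ g x + ε) : Sf f ≤ Sf g + ε := by
  refine Sf_le fun ρ hρ => ?_
  have hc := Sup_cont hρ
  have h1 := le_Sf hg hρ
  have h2 : ∫ x, f x * ρ x ≤ ∫ x, (g x * ρ x + ε * ρ x) := by
    refine integral_mono (Unc.integrable_of_cont (hf.mul hc))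
      (Unc.integrable_of_cont ((hg.mul hc).add (continuous_const.mul hc))) fun x => ?_
    have := mul_le_mul_of_nonneg_right (h x) (hρ.nonneg x)
    simp only []
    linarith
  have h3 : ∫ x, (g x * ρ x + ε * ρ x) = (∫ x, g x * ρ x) + ∫ x, ε * ρ x :=
    integral_add (Unc.integrable_of_cont (hg.mul hc))
      (Unc.integrable_of_cont (continuous_const.mul hc))
  have h4 : ∫ x, ε * ρ x = ε := by rw [integral_const_mul, hρ.int, mul_one]
  rw [h3, h4] at h2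
  linarith

theorem Sf_dist {f g : X n → ℝ} (hf : Continuous f) (hg : Continuous g) {ε : ℝ}
    (h : ∀ x, |f x - g x| ≤ ε) : |Sf f - Sf g| ≤ ε := by
  rw [abs_sub_le_iff]
  constructor
  · have := Sf_le_add hf hg (ε := ε) fun x => by have := (abs_le.1 (h x)).2; linarith
    linarith
  · have := Sf_le_add hg hf (ε := ε) fun x => by have := (abs_le.1 (h x)).1; linarith
    linarith

theorem Sup_mid_zero : mid (0 : X n) 0 = 0 := by
  funext k
  apply Subtype.ext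
  show (((0 : unitInterval) : ℝ) + ((0 : unitInterval) : ℝ)) / 2 = ((0 : unitInterval) : ℝ)
  simp

theorem Sf_mid {M : ℝ≥0} {f0 f1 z : X n → ℝ} (h0 : Good M f0) (h1 : Good M f1) (hz : Good M z)
    (hR : Rel z f0 f1) : (Sf f0 + Sf f1) / 2 ≤ Sf z := by
  obtain ⟨g0, g1, w, hg0, hg1, hw, hrel, p0, p1, pz⟩ := isotonic_triple h0 h1 hz hR
  have e0 : Sf f0 ≤ g0 0 := Sf_le fun ρ hρ => p0.dens_le h0.lip.continuous hg0.lip.continuous hρ
  have e1 : Sf f1 ≤ g1 0 := Sf_le fun ρ hρ => p1.dens_le h1.lip.continuous hg1.lip.continuous hρ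
  have e2 := hrel 0 0
  rw [Sup_mid_zero] at e2
  have e3 : w 0 ≤ Sf z := by
    refine le_of_forall_pos_le_add fun ε hε => ?_
    obtain ⟨ρ, hρ, h⟩ := pz.exists_dens hz.lip.continuous hw.lip hε
    have := le_Sf hz.lip.continuous hρ
    linarith
  linarith

end Vale.Agent.P254.FV1
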