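import Vale.Agent.P254.FV1.Defs
import Vale.Agent.P254.FV1.Sup
import Vale.Agent.P254.FV1.Jen
import Vale.Agent.P254.FV1.Sep
import Vale.Agent.P254.Unc.D2
import Vale.Agent.P254.Unc.E1b

/-! P254/FV1, L4: the functional inequality with one free variable, from `CX`. -/

open MeasureTheory Set
open scoped NNReal

namespace Vale.Agent.P254.FV1

open Unc

variable {n : ℕ}

/-- The section of a function at the value `t` of the first coordinate. -/
def Fcx_sec (G : X (n + 1) → ℝ) (t : unitInterval) (x : X n) : ℝ := G (Fin.cons t x)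

theorem Fcx_cons_dist (s t : unitInterval) (x y : X n) :
    dist (Fin.cons s x : X (n + 1)) (Fin.cons t y) ≤ max (dist s t) (dist x y) := by
  rw [dist_pi_le_iff (le_max_of_le_left dist_nonneg)]
  intro k
  refine Fin.cases ?_ (fun j => ?_) k
  · simp only [Fin.cons_zero]
    exact le_max_left _ _
  · simp only [Fin.cons_succ]
    exact (dist_le_pi_dist x y j).trans (le_max_right _ _)

theorem Fcx_cons_cont :
    Continuous (fun p : X n × unitInterval => (Fin.cons p.2 p.1 : X (n + 1))) := by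
  refine continuous_pi fun k => ?_
  refine Fin.cases ?_ (fun j => ?_) k
  · simpa using continuous_snd
  · simp only [Fin.cons_succ]
    exact (continuous_apply j).comp continuous_fst

theorem Fcx_cons_cont' :
    Continuous (fun p : unitInterval × X n => (Fin.cons p.1 p.2 : X (n + 1))) :=
  Fcx_cons_cont.comp continuous_swap

theorem Fcx_fub {F : X (n + 1) → ℝ} (hF : Continuous F) :
    ∫ z, F z = ∫ t : unitInterval, ∫ x : X n, F (Fin.cons t x) := by
  rw [integral_cons (d2_integrable_cont hF)]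
  refine integral_integral_swap (f := fun (x : X n) (t : unitInterval) => F (Fin.cons t x)) ?_
  have hc : Continuous (Function.uncurry fun (x : X n) (t : unitInterval) => F (Fin.cons t x)) :=
    hF.comp Fcx_cons_cont
  exact hc.integrable_of_hasCompactSupport (HasCompactSupport.of_compactSpace _)

theorem Fcx_int_cont {F : X (n + 1) → ℝ} (hF : Continuous F) :
    Continuous (fun t : unitInterval => ∫ x : X n, F (Fin.cons t x)) := by
  have hc : Continuous (Function.uncurry fun (t : unitInterval) (x : X n) => F (Fin.cons t x)) :=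
    hF.comp Fcx_cons_cont'
  have h := continuous_parametric_integral_of_continuous (μ := (volume : Measure (X n))) hc
    (isCompact_univ (X := X n))
  simpa using h

theorem Fcx_sec_lip {G : X (n + 1) → ℝ} {M : ℝ≥0} (hG : LipschitzWith M G) (t : unitInterval) :
    LipschitzWith M (Fcx_sec G t) := by
  refine LipschitzWith.of_dist_le_mul fun x y => ?_
  refine (hG.dist_le_mul _ _).trans (mul_le_mul_of_nonneg_left ?_ M.2)
  refine (Fcx_cons_dist t t x y).trans ?_
  rw [dist_self]
  exact max_le dist_nonneg le_rfl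

theorem Fcx_mid_self (t : unitInterval) : mid1 t t = t := by
  apply Subtype.ext
  show ((t : ℝ) + t) / 2 = t
  ring

theorem Fcx_mid_cons (s t : unitInterval) (x y : X n) :
    mid (Fin.cons s x : X (n + 1)) (Fin.cons t y) = Fin.cons (mid1 s t) (mid x y) := by
  funext k
  refine Fin.cases ?_ (fun j => ?_) k
  · rfl
  · rfl

theorem Fcx_sec_rel {G : X (n + 1) → ℝ} (hR : Rel G G G) (s t : unitInterval) :
    Rel (Fcx_sec G (mid1 s t)) (Fcx_sec G s) (Fcx_sec G t) := by
  intro x y
  have h := hR (Fin.cons s x) (Fin.cons t y)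
  rw [Fcx_mid_cons] at h
  exact h

theorem Fcx_rel {G : X (n + 1) → ℝ} (hR : Rel G G G) (u : Option (Fin n) → ℝ) (hu : 0 ≤ u none)
    (s t : unitInterval) :
    Rel (D2PS (Fcx_sec G (mid1 s t)) u) (D2PS (Fcx_sec G s) u) (D2PS (Fcx_sec G t) u) := by
  intro x y
  rw [d2_PS_eq, d2_PS_eq, d2_PS_eq]
  have h1 : ∑ k, u (some k) * ((mid x y k : unitInterval) : ℝ) =
      (∑ k, u (some k) * ((x k : unitInterval) : ℝ) +
        ∑ k, u (some k) * ((y k : unitInterval) : ℝ)) / 2 := by
    rw [← Finset.sum_add_distrib, Finset.sum_div]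
    exact Finset.sum_congr rfl (fun k _ => by rw [d2_mid_coe]; ring)
  rw [h1]
  have := mul_le_mul_of_nonneg_left (Fcx_sec_rel hR s t x y) hu
  linarith

theorem Fcx_good {G : X (n + 1) → ℝ} {M : ℝ≥0} (hG : LipschitzWith M G) (hR : Rel G G G)
    (u : Option (Fin n) → ℝ) (hu : 0 ≤ u none) (t : unitInterval) :
    Good (Real.toNNReal (∑ i, |u i|) * (M + 1)) (D2PS (Fcx_sec G t) u) := by
  refine ⟨d2_PS_lip (Fcx_sec_lip hG t) u _ (Real.le_coe_toNNReal _), ?_⟩
  have h := Fcx_rel hR u hu t t
  rw [Fcx_mid_self] at h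
  exact h

theorem Fcx_phi_cont {G : X (n + 1) → ℝ} {M : ℝ≥0} (hG : LipschitzWith M G)
    (u : Option (Fin n) → ℝ) : Continuous (fun t => Sf (D2PS (Fcx_sec G t) u)) := by
  have h : LipschitzWith (Real.toNNReal |u none| * M) (fun t => Sf (D2PS (Fcx_sec G t) u)) := by
    refine LipschitzWith.of_dist_le_mul fun s t => ?_
    rw [Real.dist_eq]
    refine Sf_dist (d2_PS_cont (Fcx_sec_lip hG s) u) (d2_PS_cont (Fcx_sec_lip hG t) u) fun x => ?_
    rw [d2_PS_eq, d2_PS_eq]
    have e : u none * Fcx_sec G s x + ∑ k, u (some k) * ((x k : unitInterval) : ℝ) -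
        (u none * Fcx_sec G t x + ∑ k, u (some k) * ((x k : unitInterval) : ℝ)) =
        u none * (Fcx_sec G s x - Fcx_sec G t x) := by ring
    rw [e, abs_mul, NNReal.coe_mul, Real.coe_toNNReal _ (abs_nonneg _), mul_assoc]
    refine mul_le_mul_of_nonneg_left ?_ (abs_nonneg _)
    rw [← Real.dist_eq]
    refine (hG.dist_le_mul _ _).trans (mul_le_mul_of_nonneg_left ?_ M.2)
    refine (Fcx_cons_dist s t x x).trans ?_
    rw [dist_self]
    exact max_le le_rfl dist_nonneg
  exact h.continuous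

theorem Fcx_phi_mid {G : X (n + 1) → ℝ} {M : ℝ≥0} (hG : LipschitzWith M G) (hR : Rel G G G)
    (u : Option (Fin n) → ℝ) (hu : 0 ≤ u none) (s t : unitInterval) :
    (Sf (D2PS (Fcx_sec G s) u) + Sf (D2PS (Fcx_sec G t) u)) / 2 ≤
      Sf (D2PS (Fcx_sec G (mid1 s t)) u) :=
  Sf_mid (Fcx_good hG hR u hu s) (Fcx_good hG hR u hu t) (Fcx_good hG hR u hu _)
    (Fcx_rel hR u hu s t)

theorem Fcx_sec_le {ρ : X (n + 1) → ℝ} {K : ℝ≥0} (hρ : LipschitzWith K ρ) (h0 : ∀ x, 0 ≤ ρ x)
    (hanti : ∀ x y, x ≤ y → x 0 = y 0 → ρ y ≤ ρ x) {f : X n → ℝ} (hf : Continuous f)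
    (t : unitInterval) :
    ∫ x, f x * Fcx_sec ρ t x ≤ Sf f * ∫ x, Fcx_sec ρ t x := by
  have hlip := Fcx_sec_lip hρ t
  have hn : ∀ x, 0 ≤ Fcx_sec ρ t x := fun x => h0 _
  have hp0 : 0 ≤ ∫ x, Fcx_sec ρ t x := integral_nonneg hn
  rcases hp0.eq_or_lt with h | h
  · have h1 : Fcx_sec ρ t =ᵐ[volume] 0 :=
      (integral_eq_zero_iff_of_nonneg hn (d2_integrable_cont hlip.continuous)).1 h.symm
    have h2 : ∫ x, f x * Fcx_sec ρ t x = 0 := by
      rw [← integral_zero (X n) ℝ]
      refine integral_congr_ae ?_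
      filter_upwards [h1] with x hx
      rw [hx]
      simp
    rw [h2, ← h, mul_zero]
  · set p : ℝ := ∫ x, Fcx_sec ρ t x with hp
    have hd : Dens n (fun x => Fcx_sec ρ t x / p) := by
      refine ⟨fun x y hxy => ?_, fun x => div_nonneg (hn x) hp0, ?_, ?_⟩
      · refine div_le_div_of_nonneg_right ?_ hp0
        refine hanti _ _ (cons_le_cons' hxy t) ?_
        simp
      · refine ⟨Real.toNNReal (1 / p) * K, LipschitzWith.of_dist_le_mul fun x y => ?_⟩
        have h3 := hlip.dist_le_mul x y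
        rw [Real.dist_eq] at h3 ⊢
        have e : Fcx_sec ρ t x / p - Fcx_sec ρ t y / p =
            (1 / p) * (Fcx_sec ρ t x - Fcx_sec ρ t y) := by ring
        have hpp : 0 ≤ 1 / p := by positivity
        rw [e, abs_mul, NNReal.coe_mul, Real.coe_toNNReal _ hpp, mul_assoc, abs_of_nonneg hpp]
        exact mul_le_mul_of_nonneg_left h3 hpp
      · rw [integral_div, ← hp, div_self h.ne']
    have h4 := le_Sf hf hd
    have h5 : ∫ x, f x * (Fcx_sec ρ t x / p) = (∫ x, f x * Fcx_sec ρ t x) / p := by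
      rw [← integral_div]
      refine integral_congr_ae (Filter.Eventually.of_forall fun x => ?_)
      simp only
      ring
    rw [h5, div_le_iff₀ h] at h4
    exact h4

/-- The combination of the test functions on the large cube. -/
noncomputable def Fcx_W (G : X (n + 1) → ℝ) (u : Option (Fin n) → ℝ) (z : X (n + 1)) : ℝ :=
  u none * G z + ∑ k : Fin n, u (some k) * ((z k.succ : unitInterval) : ℝ)

theorem Fcx_W_cont {G : X (n + 1) → ℝ} (hG : Continuous G) (u : Option (Fin n) → ℝ) :
    Continuous (Fcx_W G u) := by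
  unfold Fcx_W
  refine (continuous_const.mul hG).add (continuous_finsetSum _ fun k _ => continuous_const.mul ?_)
  exact continuous_subtype_val.comp (continuous_apply k.succ)

theorem Fcx_W_cons (G : X (n + 1) → ℝ) (u : Option (Fin n) → ℝ) (t : unitInterval) (x : X n) :
    Fcx_W G u (Fin.cons t x) = D2PS (Fcx_sec G t) u x := by
  rw [d2_PS_eq]
  simp only [Fcx_W, Fcx_sec, Fin.cons_succ]

theorem Fcx_W_int {G ρ : X (n + 1) → ℝ} (hG : Continuous G) (hρ : Continuous ρ)
    (u : Option (Fin n) → ℝ) :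
    ∫ z, Fcx_W G u z * ρ z = u none * (∫ z, G z * ρ z) +
      ∑ k : Fin n, u (some k) * (∫ z, ((z k.succ : unitInterval) : ℝ) * ρ z) := by
  have hk : ∀ k : Fin n, Continuous fun z : X (n + 1) => ((z k.succ : unitInterval) : ℝ) :=
    fun k => continuous_subtype_val.comp (continuous_apply k.succ)
  have h1 : ∀ z, Fcx_W G u z * ρ z = u none * (G z * ρ z) +
      ∑ k : Fin n, u (some k) * (((z k.succ : unitInterval) : ℝ) * ρ z) := by
    intro z
    simp only [Fcx_W]
    rw [add_mul, Finset.sum_mul]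
    congr 1
    · ring
    · exact Finset.sum_congr rfl fun k _ => by ring
  simp only [h1]
  have i1 : Integrable fun z => u none * (G z * ρ z) :=
    d2_integrable_cont (continuous_const.mul (hG.mul hρ))
  have i2 : ∀ k ∈ (Finset.univ : Finset (Fin n)),
      Integrable fun z : X (n + 1) => u (some k) * (((z k.succ : unitInterval) : ℝ) * ρ z) :=
    fun k _ => d2_integrable_cont (continuous_const.mul ((hk k).mul hρ))
  rw [integral_add i1 (integrable_finsetSum _ i2), integral_finsetSum _ i2, integral_const_mul]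
  congr 1
  exact Finset.sum_congr rfl fun k _ =>
    integral_const_mul (u (some k)) (fun z : X (n + 1) => ((z k.succ : unitInterval) : ℝ) * ρ z)

theorem Fcx_key {G ρ : X (n + 1) → ℝ} {K M : ℝ≥0} (hG : LipschitzWith M G) (hR : Rel G G G)
    (hρ : LipschitzWith K ρ) (h0 : ∀ x, 0 ≤ ρ x) (hanti : ∀ x y, x ≤ y → x 0 = y 0 → ρ y ≤ ρ x)
    (T : unitInterval) (hT : (T : ℝ) * ∫ x, ρ x = ∫ x, ((x 0 : unitInterval) : ℝ) * ρ x)
    (u : Option (Fin n) → ℝ) (hu : 0 ≤ u none) :
    ∫ z, Fcx_W G u z * ρ z ≤ Sf (D2PS (Fcx_sec G T) u) * ∫ z, ρ z := by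
  have hρc := hρ.continuous
  have hx0 : Continuous fun z : X (n + 1) => ((z 0 : unitInterval) : ℝ) :=
    continuous_subtype_val.comp (continuous_apply 0)
  have e1 : ∫ z, ρ z = ∫ t : unitInterval, ∫ x : X n, Fcx_sec ρ t x := Fcx_fub hρc
  have e2 : ∫ x, ((x 0 : unitInterval) : ℝ) * ρ x =
      ∫ t : unitInterval, (t : ℝ) * ∫ x : X n, Fcx_sec ρ t x := by
    rw [Fcx_fub (F := fun x => ((x 0 : unitInterval) : ℝ) * ρ x) (hx0.mul hρc)]
    refine integral_congr_ae (Filter.Eventually.of_forall fun t => ?_)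
    simp only [Fin.cons_zero]
    rw [integral_const_mul]
    rfl
  have hpc : Continuous (fun t : unitInterval => ∫ x : X n, Fcx_sec ρ t x) := Fcx_int_cont hρc
  have hphi := Fcx_phi_cont hG u
  have hj := jensen (fun t => Sf (D2PS (Fcx_sec G t) u)) (fun t => ∫ x : X n, Fcx_sec ρ t x)
    hphi (Fcx_phi_mid hG hR u hu) hpc (fun t => integral_nonneg fun x => h0 _) T
    (by rw [← e1, ← e2]; exact hT)
  rw [e1]
  refine le_trans ?_ hj
  rw [Fcx_fub (F := fun z => Fcx_W G u z * ρ z) ((Fcx_W_cont hG.continuous u).mul hρc)]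
  have hI : Continuous fun t : unitInterval => ∫ x : X n, Fcx_W G u (Fin.cons t x) * ρ (Fin.cons t x) :=
    Fcx_int_cont ((Fcx_W_cont hG.continuous u).mul hρc)
  refine integral_mono (hI.integrable_of_hasCompactSupport (HasCompactSupport.of_compactSpace _))
    ((hphi.mul hpc).integrable_of_hasCompactSupport (HasCompactSupport.of_compactSpace _)) fun t => ?_
  have h1 := Fcx_sec_le hρ h0 hanti (d2_PS_cont (Fcx_sec_lip hG t) u) t
  simp only [Fcx_W_cons]
  exact h1

theorem fcx_of_cx (n : ℕ) (hCX : CX n) : FCX n := by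
  intro G ρ K M hG hR hρ h0 hanti T hT
  set m : ℝ := ∫ x, ρ x with hm
  have hm0 : 0 ≤ m := integral_nonneg h0
  have hkk : ∀ k : Fin n, 0 ≤ ∫ x, ((x k.succ : unitInterval) : ℝ) * ρ x := fun k =>
    integral_nonneg (fun x => mul_nonneg (x k.succ).2.1 (h0 x))
  have hprod0 : 0 ≤ ∏ k : Fin n, (2 * ∫ x, ((x k.succ : unitInterval) : ℝ) * ρ x) :=
    Finset.prod_nonneg (fun k _ => mul_nonneg (by norm_num) (hkk k))
  have hI0 : 0 ≤ ∫ x : X n, max (G (Fin.cons T x)) 0 := integral_nonneg (fun x => le_max_right _ _)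
  have hR0 : 0 ≤ m ^ (n + 1) * ∫ x : X n, max (G (Fin.cons T x)) 0 :=
    mul_nonneg (pow_nonneg hm0 _) hI0
  rcases le_or_gt (∫ x, G x * ρ x) 0 with hg | hg
  · exact (mul_nonpos_of_nonpos_of_nonneg hg hprod0).trans hR0
  rcases hm0.eq_or_lt with h | hmpos
  · exfalso
    have h1 : ρ =ᵐ[volume] 0 :=
      (integral_eq_zero_iff_of_nonneg h0 (d2_integrable_cont hρ.continuous)).1 h.symm
    have h2 : ∫ x, G x * ρ x = 0 := by
      rw [← integral_zero (X (n + 1)) ℝ]
      refine integral_congr_ae ?_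
      filter_upwards [h1] with x hx
      rw [hx]
      simp
    exact absurd h2 hg.ne'
  · -- the moment vector
    set v : Option (Fin n) → ℝ := fun i => match i with
      | none => (∫ x, G x * ρ x) / m
      | some k => (∫ x, ((x k.succ : unitInterval) : ℝ) * ρ x) / m with hv
    have hv0 : ∀ i, 0 ≤ v i := by
      intro i
      cases i with
      | none => exact div_nonneg hg.le hm0
      | some k => exact div_nonneg (hkk k) hm0
    have hsep := sep hCX (Fcx_sec_lip hG T)
      (by have h := Fcx_sec_rel hR T T; rw [Fcx_mid_self] at h; exact h) v hv0 (by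
        intro u hu
        have h1 := Fcx_key hG hR hρ h0 hanti T hT u (hu none)
        rw [Fcx_W_int hG.continuous hρ.continuous u, ← hm] at h1
        rw [Fintype.sum_option]
        have h2 : u none * v none + ∑ k : Fin n, u (some k) * v (some k) =
            (u none * (∫ z, G z * ρ z) +
              ∑ k : Fin n, u (some k) * (∫ z, ((z k.succ : unitInterval) : ℝ) * ρ z)) / m := by
          rw [add_div, Finset.sum_div]
          congr 1
          · simp only [hv]
            ring
          · refine Finset.sum_congr rfl fun k _ => ?_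
            simp only [hv]
            ring
        rw [h2, div_le_iff₀ hmpos]
        exact h1)
    rw [Fintype.prod_option] at hsep
    simp only [hv] at hsep
    rw [Finset.prod_div_distrib, Finset.prod_const, Finset.card_univ, Fintype.card_fin,
      div_mul_div_comm, div_le_div_iff₀ (by positivity) (by positivity)] at hsep
    rw [Finset.prod_mul_distrib, Finset.prod_const, Finset.card_univ, Fintype.card_fin]
    have e3 : ∫ x : X n, max (Fcx_sec G T x) 0 = ∫ x : X n, max (G (Fin.cons T x)) 0 := rfl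
    rw [e3] at hsep
    calc (∫ x, G x * ρ x) * (2 ^ n * ∏ k : Fin n, ∫ x, ((x k.succ : unitInterval) : ℝ) * ρ x)
        = (∫ x, G x * ρ x) * (∏ k : Fin n, ∫ x, ((x k.succ : unitInterval) : ℝ) * ρ x) * 2 ^ n := by
          ring
      _ ≤ (∫ x : X n, max (G (Fin.cons T x)) 0) * (m * m ^ n) := hsep
      _ = m ^ (n + 1) * ∫ x : X n, max (G (Fin.cons T x)) 0 := by ring

end Vale.Agent.P254.FV1
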