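import Vale.Agent.P254.FV1.Defs
import Vale.Agent.P254.Unc.BerH

/-! P254, one free direction: the half body inequality. -/

open MeasureTheory Set
open scoped ENNReal Pointwise

namespace Vale.Agent.P254.FV1.H

open Unc Unc.BerH

/-- one crossing. -/
theorem half_one (d : ℕ) {F : ℝ → ℝ} {R c : ℝ} (hc : 0 < c)
    (hF : ∀ t, t < 0 → F t = 0) (i0 : Integrable F) (i1 : Integrable (fun t => t * F t))
    (hm0 : 0 < ∫ t, F t) (hR : ∀ t, 0 < F t → t ≤ R)
    (hT : ∀ b : ℝ, 0 < b → ∀ s t, 0 < s → s < t → cone d c b t < F t → cone d c b s ≤ F s) :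
    (d + 2) * c * (∫ t, t * F t) ≤ (d + 1) * (∫ t, F t) ^ 2 := by
  set M0 := ∫ t, F t with hM0
  set M1 := ∫ t, t * F t with hM1
  set b := (d + 1) * M0 / c with hb
  have hbp : 0 < b := by positivity
  have hcn : ∀ t, 0 ≤ cone d c b t := by
    intro t
    unfold cone
    refine indicator_nonneg (fun t ht => ?_) t
    have : 0 ≤ 1 - t / b := by
      rw [sub_nonneg, div_le_one hbp]; exact ht.2.le
    positivity
  set S : Set ℝ := {t | 0 < t ∧ cone d c b t < F t} with hS
  set t₀ := sSup S with ht₀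
  have hbdd : BddAbove S := ⟨R, fun t ht => hR t ((hcn t).trans_lt ht.2)⟩
  have key : ∀ᵐ t : ℝ, (t - t₀) * (F t - cone d c b t) ≤ 0 := by
    have h2 : ∀ᵐ t : ℝ, t ≠ 0 := by
      rw [ae_iff]
      simp
    filter_upwards [h2] with t htne
    rcases lt_or_ge t 0 with h0 | h0
    · rw [hF t h0]
      unfold cone
      rw [indicator_of_notMem (fun h => absurd h.1 (not_le.2 h0))]
      simp
    have htp : 0 < t := lt_of_le_of_ne h0 (Ne.symm htne)
    rcases lt_or_ge t t₀ with h1 | h1
    · have hne : S.Nonempty := by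
        by_contra hne
        rw [not_nonempty_iff_eq_empty] at hne
        rw [ht₀, hne, Real.sSup_empty] at h1
        exact absurd h0 (not_le.2 h1)
      obtain ⟨t', ht', htt'⟩ := exists_lt_of_lt_csSup hne h1
      have := hT b hbp t t' htp htt' ht'.2
      exact mul_nonpos_of_nonpos_of_nonneg (by linarith) (by linarith)
    · rcases eq_or_lt_of_le h1 with h2 | h2
      · rw [h2]
        simp
      · have h3 : F t ≤ cone d c b t := by
          by_contra hlt
          push Not at hlt
          have : t ∈ S := ⟨htp, hlt⟩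
          exact absurd (le_csSup hbdd this) (not_le.2 h2)
        exact mul_nonpos_of_nonneg_of_nonpos (by linarith) (by linarith)
  have hint : ∫ t, (t - t₀) * (F t - cone d c b t) ≤ 0 := integral_nonpos_of_ae key
  obtain ⟨j0, g0⟩ := cone_integral d 0 c hbp
  obtain ⟨j1, g1⟩ := cone_integral d 1 c hbp
  rw [cone0] at g0
  rw [cone1] at g1
  simp only [pow_zero, one_mul, pow_one, zero_add] at j0 j1 g0 g1
  have hexp : ∫ t, (t - t₀) * (F t - cone d c b t) =
      (M1 - ∫ t, t * cone d c b t) - t₀ * (M0 - ∫ t, cone d c b t) := by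
    have e1 : ∀ t, (t - t₀) * (F t - cone d c b t) =
        (t * F t - t * cone d c b t) - t₀ * (F t - cone d c b t) := fun t => by ring
    simp only [e1]
    have k1 : Integrable (fun t => (t * F t - t * cone d c b t)) := (i1.sub j1)
    have k0 : Integrable (fun t => t₀ * (F t - cone d c b t)) := (i0.sub j0).const_mul _
    rw [integral_sub k1 k0, integral_const_mul, integral_sub i1 j1, integral_sub i0 j0]
  rw [hexp, g0, g1] at hint
  have hcb : c * b = (d + 1) * M0 := by rw [hb]; field_simp
  have h0 : c * b * (1 / ((d : ℝ) + 1)) = M0 := by rw [hcb]; field_simp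
  have h1 : c * (c * b ^ (1 + 1) * (1 / (((d : ℝ) + 1) * (d + 2)))) * (d + 2) = (d + 1) * M0 ^ 2 := by
    have : c * (c * b ^ (1 + 1)) = (c * b) ^ 2 := by ring
    rw [← mul_assoc c, this, hcb]; field_simp
  rw [h0] at hint
  simp only [sub_self, mul_zero, sub_zero] at hint
  rw [← h1]
  have h3 : M1 ≤ c * b ^ (1 + 1) * (1 / (((d : ℝ) + 1) * (d + 2))) := by linarith
  calc (d + 2) * c * M1 ≤ (d + 2) * c * (c * b ^ (1 + 1) * (1 / (((d : ℝ) + 1) * (d + 2)))) := by
        gcongr
    _ = _ := by ring

theorem slice_zero {d : ℕ} (K : Set (Fin (d + 1) → ℝ)) (T : ℝ) : slice K 0 T = sl K T := by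
  ext y
  simp [slice, sl, Fin.insertNth_zero']

theorem half_ineq {d : ℕ} {K : Set (Fin (d + 1) → ℝ)} (hK : Convex ℝ K) (hc : IsCompact K)
    (hk : ∀ x ∈ K, 0 ≤ x 0) :
    ((d : ℝ) + 2) * (volume (sl K 0)).toReal * ∫ x in K, x 0 ≤
      ((d : ℝ) + 1) * (volume K).toReal ^ 2 := by
  obtain ⟨i0, f0⟩ := fubini_slice hc 0 (φ := fun _ => 1) continuous_const
  obtain ⟨i1, f1⟩ := fubini_slice hc 0 (φ := fun t => t) continuous_id
  simp only [one_mul] at i0 f0
  have f0' : ∫ x in K, (1 : ℝ) = volume.real K := by simp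
  rw [f0'] at f0
  have ev : (volume K).toReal = volume.real K := rfl
  rw [← slice_zero, ev]
  set k : Fin (d + 1) := 0 with hkk
  obtain ⟨R, hR⟩ : ∃ R : ℝ, ∀ x ∈ K, x k ≤ R := by
    obtain ⟨R, hR⟩ := (hc.image (continuous_apply k)).bddAbove
    exact ⟨R, fun x hx => hR ⟨x, hx, rfl⟩⟩
  have hneg : ∀ t, t < 0 → slice K k t = ∅ := by
    intro t ht
    ext y
    simp only [slice, mem_ofPred_eq, mem_empty_iff_false, iff_false]
    intro h
    have := hk _ h
    simp [hkk] at this
    linarith
  have hle : ∀ t, (slice K k t).Nonempty → t ≤ R := by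
    rintro t ⟨y, hy⟩
    have := hR _ hy
    simpa using this
  have hfin : ∀ t, volume (slice K k t) ≠ ∞ := by
    intro t
    have hb : Bornology.IsBounded (slice K k t) := by
      obtain ⟨r, hr⟩ := hc.isBounded.exists_norm_le
      refine (Metric.isBounded_iff_subset_closedBall 0).2 ⟨r, fun y hy => ?_⟩
      rw [mem_closedBall_zero_iff]
      have h1 := hr _ hy
      have h0 : 0 ≤ r := (norm_nonneg _).trans h1
      rw [pi_norm_le_iff_of_nonneg h0] at h1 ⊢
      intro i
      simpa using h1 (k.succAbove i)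
    exact hb.measure_lt_top.ne
  have hnn : ∀ t, 0 ≤ volume.real (slice K k t) := fun t => measureReal_nonneg
  change ((d : ℝ) + 2) * volume.real (slice K k 0) * _ ≤ _
  set c := volume.real (slice K k 0) with hcdef
  have hc0 : 0 ≤ c := hnn 0
  rcases hc0.eq_or_lt with hc1 | hcp
  · rw [← hc1]
    simp only [mul_zero, zero_mul]
    positivity
  rcases (measureReal_nonneg (μ := volume) (s := K)).eq_or_lt with hv | hv
  · have h0 : volume K = 0 := by
      have := hv.symm
      rw [measureReal_eq_zero_iff hc.measure_lt_top.ne] at this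
      exact this
    rw [← hv, Measure.restrict_eq_zero.2 h0]
    simp
  rw [f1, f0]
  have hposne : ∀ t, 0 < volume.real (slice K k t) → (slice K k t).Nonempty := by
    intro t h1
    rw [nonempty_iff_ne_empty]
    intro h
    rw [h] at h1
    simp at h1
  refine half_one d (R := R) hcp (fun t ht => by simp [hneg t ht]) i0 i1 (f0 ▸ hv)
    (fun t ht => hle t (hposne t ht)) ?_
  intro b hbp s t hs hst hlt
  have hcone : ∀ t, 0 ≤ t → t < b → cone d c b t = c * (1 - t / b) ^ d := fun t h1 h2 => by
    unfold cone; rw [indicator_of_mem (show t ∈ Ico 0 b from ⟨h1, h2⟩)]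
  have hcone' : ∀ t, b ≤ t → cone d c b t = 0 := fun t h1 => by
    unfold cone; rw [indicator_of_notMem (fun h => absurd h.2 (not_lt.2 h1))]
  have hpos : ∀ t, t < b → 0 < 1 - t / b := fun t h2 => by
    rw [sub_pos, div_lt_one hbp]; exact h2
  have ht : 0 < t := hs.trans hst
  rcases le_or_gt b s with hbs | hsb
  · rw [hcone' s hbs]; exact hnn s
  rw [hcone s hs.le hsb]
  refine (ENNReal.ofReal_le_iff_le_toReal (hfin s)).1 ?_
  -- convex combination
  set m := s / t with hm
  set l := 1 - s / t with hl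
  have hm0 : 0 < m := div_pos hs ht
  have hl0 : 0 < l := by rw [hl, sub_pos, div_lt_one ht]; exact hst
  have hlm : l + m = 1 := by rw [hl, hm]; ring
  have hu' : l * 0 + m * t = s := by rw [hm]; field_simp; ring
  have hS0 : ENNReal.ofReal (c * 1 ^ d) ≤ volume (slice K k 0) := by
    rw [one_pow, mul_one, hcdef]
    exact ENNReal.ofReal_toReal_le
  rcases le_or_gt b t with hbt | htb
  · rw [hcone' t hbt] at hlt
    obtain ⟨y, hy⟩ := hposne t hlt
    have := bm_point (A := slice K k 0) (C := slice K k s) (m := m) hl0 (y := y)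
      (fun x hx => hu' ▸ slice_conv hK k hl0.le hm0.le hlm hx hy)
    refine le_trans ?_ this
    refine le_trans ?_ (mul_le_mul_right hS0 _)
    rw [← ENNReal.ofReal_mul (by positivity)]
    apply ENNReal.ofReal_le_ofReal
    have h1 : 1 - s / b ≤ l := by
      rw [hl]
      have : s / t ≤ s / b := div_le_div_of_nonneg_left hs.le hbp hbt
      linarith
    have h2 := hpos s hsb
    calc c * (1 - s / b) ^ d ≤ c * l ^ d := by gcongr
      _ = _ := by ring
  · rw [hcone t ht.le htb] at hlt
    have h3 : ENNReal.ofReal (c * (1 - t / b) ^ d) ≤ volume (slice K k t) :=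
      ENNReal.ofReal_le_of_le_toReal hlt.le
    have := bm_scaled (measurableSet_slice hc k 0) (measurableSet_slice hc k t)
      (measurableSet_slice hc k s) one_pos (hpos t htb) hcp hl0 hm0
      (fun x hx y hy => hu' ▸ slice_conv hK k hl0.le hm0.le hlm hx hy) hS0 h3
    convert this using 4
    rw [hl, hm]
    field_simp
    ring

end Vale.Agent.P254.FV1.H
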