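import Mathlib

/-! P254, one free direction, L12: the numerical inequality. -/

namespace Vale.Agent.P254.FV1

theorem fv_ratio (N : ℕ) (hN : 19 ≤ N) :
    (N + 2) ^ (2 * N + 1) ≤ 8 * N ^ 2 * (N + 1) ^ (2 * N - 1) := by
  have hN' : (19 : ℝ) ≤ N := by exact_mod_cast hN
  have hm0 : (0 : ℝ) < (N : ℝ) + 1 := by linarith
  have h1 : (1 + 1 / ((N : ℝ) + 1)) ^ (2 * (N + 1)) ≤ 2.7182818286 ^ 2 := by
    have h2 : 1 + 1 / ((N : ℝ) + 1) ≤ Real.exp (1 / ((N : ℝ) + 1)) := by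
      have := Real.add_one_le_exp (1 / ((N : ℝ) + 1))
      linarith
    have h3 : (1 + 1 / ((N : ℝ) + 1)) ^ (N + 1) ≤ Real.exp 1 := by
      calc (1 + 1 / ((N : ℝ) + 1)) ^ (N + 1) ≤ Real.exp (1 / ((N : ℝ) + 1)) ^ (N + 1) :=
            pow_le_pow_left₀ (by positivity) h2 _
        _ = Real.exp 1 := by
          rw [← Real.exp_nat_mul]
          congr 1
          push_cast
          field_simp
    rw [mul_comm 2 (N + 1), pow_mul]
    have h6 : 0 ≤ (1 + 1 / ((N : ℝ) + 1)) ^ (N + 1) := by positivity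
    exact pow_le_pow_left₀ h6 (h3.trans Real.exp_one_lt_d9.le) 2
  have h4 : ((N : ℝ) + 2) ^ (2 * N + 2) ≤ 2.7182818286 ^ 2 * ((N : ℝ) + 1) ^ (2 * N + 2) := by
    have e : (N : ℝ) + 2 = (1 + 1 / ((N : ℝ) + 1)) * ((N : ℝ) + 1) := by
      field_simp
      ring
    rw [e, mul_pow, show 2 * N + 2 = 2 * (N + 1) by ring]
    exact mul_le_mul_of_nonneg_right h1 (by positivity)
  have h5 : ((N : ℝ) + 1) ^ (2 * N + 2) = ((N : ℝ) + 1) ^ 3 * ((N : ℝ) + 1) ^ (2 * N - 1) := by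
    rw [← pow_add]
    congr 1
    omega
  have h6 : (2.7182818286 : ℝ) ^ 2 * ((N : ℝ) + 1) ^ 3 ≤ 8 * (N : ℝ) ^ 2 * ((N : ℝ) + 2) := by
    nlinarith [mul_nonneg (sub_nonneg.2 hN') (sq_nonneg (N : ℝ)),
      mul_nonneg (sub_nonneg.2 hN') (sub_nonneg.2 hN')]
  have h7 : ((N : ℝ) + 2) * ((N : ℝ) + 2) ^ (2 * N + 1) ≤
      ((N : ℝ) + 2) * (8 * (N : ℝ) ^ 2 * ((N : ℝ) + 1) ^ (2 * N - 1)) := by
    calc ((N : ℝ) + 2) * ((N : ℝ) + 2) ^ (2 * N + 1) = ((N : ℝ) + 2) ^ (2 * N + 2) := by ring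
      _ ≤ 2.7182818286 ^ 2 * (((N : ℝ) + 1) ^ 3 * ((N : ℝ) + 1) ^ (2 * N - 1)) := by
          rw [← h5]; exact h4
      _ = (2.7182818286 ^ 2 * ((N : ℝ) + 1) ^ 3) * ((N : ℝ) + 1) ^ (2 * N - 1) := by ring
      _ ≤ (8 * (N : ℝ) ^ 2 * ((N : ℝ) + 2)) * ((N : ℝ) + 1) ^ (2 * N - 1) :=
          mul_le_mul_of_nonneg_right h6 (by positivity)
      _ = _ := by ring
  have h8 := le_of_mul_le_mul_left h7 (by linarith)
  exact_mod_cast h8

/-- L12 -/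
theorem fv_num {N : ℕ} (hN : 19 ≤ N) :
    N ^ 2 * (N + 1) ^ (2 * N - 1) < 2 * 8 ^ (N - 1) * N.factorial ^ 2 := by
  induction N, hN using Nat.le_induction with
  | base => norm_num [Nat.factorial]
  | succ n hn ih =>
    have h := fv_ratio n hn
    have e1 : 2 * (n + 1) - 1 = 2 * n + 1 := by omega
    have e2 : n + 1 - 1 = (n - 1) + 1 := by omega
    rw [e1, e2]
    calc (n + 1) ^ 2 * (n + 1 + 1) ^ (2 * n + 1) ≤
          (n + 1) ^ 2 * (8 * n ^ 2 * (n + 1) ^ (2 * n - 1)) := Nat.mul_le_mul_left _ h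
      _ = 8 * (n + 1) ^ 2 * (n ^ 2 * (n + 1) ^ (2 * n - 1)) := by ring
      _ < 8 * (n + 1) ^ 2 * (2 * 8 ^ (n - 1) * n.factorial ^ 2) :=
          Nat.mul_lt_mul_of_pos_left ih (by positivity)
      _ = 2 * 8 ^ ((n - 1) + 1) * (n + 1).factorial ^ 2 := by
          rw [Nat.factorial_succ]; ring

end Vale.Agent.P254.FV1
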