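import Vale.Agent.P254.FV1.Defs
import Vale.Agent.P254.Unc.E1Defs
import Vale.Agent.P254.Unc.FinDefs
import Vale.Agent.P254.Unc.D2

/-! Statement sheet (never import it; prove every theorem in its own file, verbatim). -/

open MeasureTheory Set Filter Topology
open scoped NNReal

namespace Vale.Agent.P254.FV1

open Unc

variable {n : ℕ}

/-! L1, file FV1/Sup.lean (imports Unc/P5b, Unc/D1a) -/

theorem le_Sf {f ρ : X n → ℝ} (hf : Continuous f) (hρ : Dens n ρ) : ∫ x, f x * ρ x ≤ Sf f := sorry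

theorem Sf_le {f : X n → ℝ} {c : ℝ} (h : ∀ ρ, Dens n ρ → ∫ x, f x * ρ x ≤ c) : Sf f ≤ c := sorry

theorem exists_Sf {f : X n → ℝ} (hf : Continuous f) {ε : ℝ} (hε : 0 < ε) :
    ∃ ρ, Dens n ρ ∧ Sf f - ε ≤ ∫ x, f x * ρ x := sorry

theorem Sf_dist {f g : X n → ℝ} (hf : Continuous f) (hg : Continuous g) {ε : ℝ}
    (h : ∀ x, |f x - g x| ≤ ε) : |Sf f - Sf g| ≤ ε := sorry

theorem Sf_mid {M : ℝ≥0} {f0 f1 z : X n → ℝ} (h0 : Good M f0) (h1 : Good M f1) (hz : Good M z)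
    (hR : Rel z f0 f1) : (Sf f0 + Sf f1) / 2 ≤ Sf z := sorry

/-! L2, file FV1/Jen.lean (Mathlib + Unc/Defs) -/

theorem jensen (φ p : unitInterval → ℝ) (hφ : Continuous φ)
    (hm : ∀ s t, (φ s + φ t) / 2 ≤ φ (mid1 s t)) (hp : Continuous p) (hp0 : ∀ t, 0 ≤ p t)
    (T : unitInterval) (hT : (T : ℝ) * ∫ t, p t = ∫ t : unitInterval, (t : ℝ) * p t) :
    ∫ t, φ t * p t ≤ φ T * ∫ t, p t := sorry

/-! L3, file FV1/Sep.lean (Hahn-Banach in `Option (Fin n) → ℝ`, `D2V0`, `d2_V_compact`, `CX n`) -/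

theorem sep (hCX : CX n) {G : X n → ℝ} {M : ℝ≥0} (hG : LipschitzWith M G) (hR : Rel G G G)
    (v : Option (Fin n) → ℝ) (hv : ∀ i, 0 ≤ v i)
    (h : ∀ u : Option (Fin n) → ℝ, (∀ i, 0 ≤ u i) → ∑ i, u i * v i ≤ Sf (D2PS G u)) :
    ∏ i, v i ≤ (∫ x, max (G x) 0) / 2 ^ n := sorry

/-! L4, file FV1/Fcx.lean (from L1, L2, L3 and Fubini on `X (n+1)`) -/

theorem fcx_of_cx (n : ℕ) (hCX : CX n) : FCX n := sorry

/-! L5, file FV1/SupConv.lean (adapt Unc/E1a.lean or Unc/E1w.lean) -/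

theorem exists_supconvF (L : Set (X (n + 2))) (hL : IsClosed L) (hne : L.Nonempty) (hlow : LowE L)
    (hmid : ∀ x ∈ L, ∀ y ∈ L, mid x y ∈ L) :
    ∃ g : ℕ → X (n + 1) → ℝ, (∀ N, ∃ K, LipschitzWith K (g N)) ∧ (∀ N, Rel (g N) (g N) (g N)) ∧
      (∀ N x y, x ≤ y → x 0 = y 0 → g N y ≤ g N x) ∧ (∀ N x, g N x ≤ 1) ∧
      (∀ N x, 0 < Hf L x → Hf L x ≤ g N x) ∧
      ∀ x, Tendsto (fun N => max (g N x) 0) atTop (𝓝 (Hf L x)) := sorry

/-! L6, file FV1/Fub.lean (adapt Unc/E1b.lean) -/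

theorem fub_zeroF (L : Set (X (n + 2))) (hL : IsClosed L) (hlow : LowE L) :
    2 * ∫ p in L, ((p 0 : unitInterval) : ℝ) = ∫ x : X (n + 1), Hf L x ^ 2 := sorry

theorem fub_sec (L : Set (X (n + 2))) (hL : IsClosed L) (T : unitInterval) :
    (volume {q : X (n + 1) | (Fin.cons (q 0) (Fin.cons T (Fin.tail q)) : X (n + 2)) ∈ L}).toReal =
      ∫ x : X n, Hf L (Fin.cons T x) := sorry

/-! L7, file FV1/Cube.lean (limit as in Unc/E1as2.lean, from L4, L5, L6) -/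

theorem func_of_fcx (n : ℕ) (h : FCX n) : FUNC n := sorry

/-! L8, file FV1/Real.lean (scaling, swap of the coordinates 0 and 1; cf. Unc/E2.lean) -/

theorem funcr_of_func (n : ℕ) (h : FUNC n) : FUNCR (n + 1) := sorry

/-! L9, file FV1/Half.lean (one-dimensional comparison with a cone, cf. Unc/BerH.lean) -/

theorem half_ineq {d : ℕ} {K : Set (Fin (d + 1) → ℝ)} (hK : Convex ℝ K) (hc : IsCompact K)
    (hk : ∀ x ∈ K, 0 ≤ x 0) :
    ((d : ℝ) + 2) * (volume (sl K 0)).toReal * ∫ x in K, x 0 ≤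
      ((d : ℝ) + 1) * (volume K).toReal ^ 2 := sorry

/-! L10, file FV1/Var.lean (from L9 and `Unc.berwald` on both halves) -/

theorem var_ineq {d : ℕ} {K : Set (Fin (d + 1) → ℝ)} (hK : Convex ℝ K) (hc : IsCompact K)
    (hv : 0 < (volume K).toReal) (T : ℝ) (hT : T * (volume K).toReal = ∫ x in K, x 0) :
    (volume (sl K T)).toReal ^ 2 * ∫ x in K, (x 0 - T) ^ 2 ≤
      ((d : ℝ) + 1) ^ 2 / (2 * ((d : ℝ) + 2) * ((d : ℝ) + 3)) * (volume K).toReal ^ 3 := sorry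

/-! L11, file FV1/Body.lean (as `unc_body` in Unc/FinBody.lean; from FUNCR, L10, Berwald) -/

/-- `K` is invariant under the changes of sign of all coordinates except `x_0`. -/
def Sym1 {d : ℕ} (K : Set (Fin (d + 1) → ℝ)) : Prop :=
  ∀ x ∈ K, ∀ y : Fin (d + 1) → ℝ, y 0 = x 0 → (∀ k : Fin d, |y k.succ| = |x k.succ|) → y ∈ K

theorem fv_body {d : ℕ} (h : FUNCR d) {K : Set (Fin (d + 1) → ℝ)} (hK : IsConvexBody K)
    (hs : Sym1 K) :
    (covMatrix K).det / (volume K).toReal ^ 2 ≤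
      ((d : ℝ) + 1) ^ 2 / (2 * ((d : ℝ) + 2) * ((d : ℝ) + 3)) *
        (((d : ℝ) + 2) / (8 * ((d : ℝ) + 3))) ^ d := sorry

/-! L12, file FV1/Num.lean -/

theorem fv_num {N : ℕ} (hN : 19 ≤ N) :
    N ^ 2 * (N + 1) ^ (2 * N - 1) < 2 * 8 ^ (N - 1) * N.factorial ^ 2 := sorry

end Vale.Agent.P254.FV1
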